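import Vale.Agent.P344.R2.H621.Circ

/-!
# Asymptotics
-/

namespace Vale.Agent.P344.R2.H621

open Filter

/-- The numerical facts that hold for all large `n`. -/
theorem eventually_num {γ : ℝ} (hγ : 0 < γ) : ∀ᶠ n : ℕ in atTop,
    1 ≤ n ∧ 2800 ≤ Real.log (Real.log n) ∧ (n : ℝ) ^ (-(γ / 2)) ≤ 1 / 200 ∧
      ∃ (l : ℕ) (L q : ℝ), 0 ≤ L ∧ 1 < q ∧ q * (3 * L) ≤ (2 * l : ℕ) ∧
        (2 : ℝ) ^ (2 * l) ≤ (n : ℝ) ^ (γ / 2) ∧ Real.log q = Real.log (Real.log n) / 2 ∧
        Real.exp (-L) = (100 * (1 + Real.log (Real.log n)))⁻¹ := by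
  have hlog : Tendsto (fun n : ℕ => Real.log (n : ℝ)) atTop atTop :=
    Real.tendsto_log_atTop.comp tendsto_natCast_atTop_atTop
  have hll : Tendsto (fun n : ℕ => Real.log (Real.log (n : ℝ))) atTop atTop :=
    Real.tendsto_log_atTop.comp hlog
  have hl2 : 0 < Real.log 2 := Real.log_pos (by norm_num)
  obtain ⟨a, ha⟩ : ∃ a, a = γ / (2 * Real.log 2) := ⟨_, rfl⟩
  have ha0 : 0 < a := by rw [ha]; positivity
  have e1 : ∀ᶠ n : ℕ in atTop, (n : ℝ) ^ (-(γ / 2)) ≤ 1 / 200 := by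
    have h1 : Tendsto (fun n : ℕ => (n : ℝ) ^ (-(γ / 2))) atTop (nhds 0) :=
      (tendsto_rpow_neg_atTop (by positivity)).comp tendsto_natCast_atTop_atTop
    exact h1.eventually_le_const (by norm_num)
  have e2 : ∀ᶠ y : ℝ in atTop, Real.log y ≤ y ^ (1 / 4 : ℝ) := by
    have h1 := (isLittleO_log_rpow_atTop (show (0 : ℝ) < 1 / 4 by norm_num)).bound one_pos
    filter_upwards [h1, eventually_ge_atTop 1] with y hy hy1
    rw [one_mul, Real.norm_of_nonneg (Real.log_nonneg hy1),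
      Real.norm_of_nonneg (Real.rpow_nonneg (by linarith) _)] at hy
    exact hy
  have e3 : ∀ᶠ y : ℝ in atTop, max 1 (602 / a) ≤ y ^ (1 / 4 : ℝ) :=
    (tendsto_rpow_atTop (by norm_num)).eventually_ge_atTop _
  filter_upwards [eventually_ge_atTop 1, hll.eventually_ge_atTop 2800, e1, hlog.eventually e2,
    hlog.eventually e3, hlog.eventually_ge_atTop 1] with n hn hx he1 he2 he3 hy1
  obtain ⟨y, hy⟩ : ∃ y, y = Real.log (n : ℝ) := ⟨_, rfl⟩
  obtain ⟨w, hw⟩ : ∃ w, w = y ^ (1 / 4 : ℝ) := ⟨_, rfl⟩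
  rw [← hy] at hx he2 he3 hy1
  rw [← hw] at he2 he3
  have hn0 : (0 : ℝ) < n := by exact_mod_cast (by omega : 0 < n)
  have hy0 : 0 < y := by linarith
  have hw1 : 1 ≤ w := (le_max_left _ _).trans he3
  have hwa : 602 / a ≤ w := (le_max_right _ _).trans he3
  have hw4 : w ^ 4 = y := by
    rw [hw, ← Real.rpow_natCast, ← Real.rpow_mul hy0.le]
    norm_num
  have hw2 : w ^ 2 = Real.sqrt y := by
    rw [← hw4, show w ^ 4 = (w ^ 2) ^ 2 by ring, Real.sqrt_sq (by positivity)]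
  have hmain : w ^ 2 * (3 * (100 * (1 + w))) + 2 ≤ a * w ^ 4 := by
    have h1 : 602 ≤ a * w := by
      rw [div_le_iff₀ ha0] at hwa
      linarith
    have h2 : 602 * w ^ 3 ≤ a * w ^ 4 := by
      calc 602 * w ^ 3 ≤ (a * w) * w ^ 3 := mul_le_mul_of_nonneg_right h1 (by positivity)
        _ = a * w ^ 4 := by ring
    have h3 : w ^ 2 ≤ w ^ 3 := by
      calc w ^ 2 = w ^ 2 * 1 := by ring
        _ ≤ w ^ 2 * w := mul_le_mul_of_nonneg_left hw1 (by positivity)
        _ = w ^ 3 := by ring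
    have h4 : 1 ≤ w ^ 3 := one_le_pow₀ hw1
    nlinarith
  refine ⟨hn, by rw [← hy]; exact hx, he1, ⌊γ / (4 * Real.log 2) * y⌋₊,
    Real.log (100 * (1 + Real.log y)), Real.sqrt y, ?_, ?_, ?_, ?_, ?_, ?_⟩
  · exact Real.log_nonneg (by linarith)
  · have h1 : 1 < Real.sqrt y := by
      rw [← hw2]
      have h2 : 1 < w := by
        by_contra h3
        push Not at h3
        have : Real.log y ≤ 1 := he2.trans h3
        linarith
      nlinarith
    exact h1
  · have h1 : Real.log (100 * (1 + Real.log y)) ≤ 100 * (1 + w) := by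
      have h2 := Real.log_le_sub_one_of_pos (x := 100 * (1 + Real.log y)) (by linarith)
      linarith
    have h2 : γ / (4 * Real.log 2) * y < ⌊γ / (4 * Real.log 2) * y⌋₊ + 1 :=
      Nat.lt_floor_add_one _
    have h3 : a * y = 2 * (γ / (4 * Real.log 2) * y) := by
      rw [ha]
      field_simp
      ring
    have h4 : Real.sqrt y * (3 * Real.log (100 * (1 + Real.log y))) ≤
        w ^ 2 * (3 * (100 * (1 + w))) := by
      rw [hw2]
      exact mul_le_mul_of_nonneg_left (by linarith) (Real.sqrt_nonneg _)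
    rw [hw4] at hmain
    push_cast
    linarith
  · have h1 : (⌊γ / (4 * Real.log 2) * y⌋₊ : ℝ) ≤ γ / (4 * Real.log 2) * y :=
      Nat.floor_le (by positivity)
    have h2 : (2 : ℝ) ^ (2 * ⌊γ / (4 * Real.log 2) * y⌋₊) =
        Real.exp (Real.log 2 * (2 * ⌊γ / (4 * Real.log 2) * y⌋₊ : ℕ)) := by
      rw [mul_comm (Real.log 2), Real.exp_nat_mul, Real.exp_log (by norm_num)]
    rw [h2, Real.rpow_def_of_pos hn0, ← hy]
    apply Real.exp_le_exp.2
    push_cast
    calc Real.log 2 * (2 * (⌊γ / (4 * Real.log 2) * y⌋₊ : ℝ))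
        ≤ Real.log 2 * (2 * (γ / (4 * Real.log 2) * y)) := by
          refine mul_le_mul_of_nonneg_left ?_ hl2.le
          linarith
      _ = y * (γ / 2) := by
          field_simp
          ring
  · rw [Real.log_sqrt hy0.le, hy]
  · rw [Real.exp_neg, Real.exp_log (by linarith), hy]

/-- From the inequality to the bound. -/
theorem num_final {n s x δn e q' N : ℝ} (hn : 0 < n) (hx : 2800 ≤ x) (hs : s ≤ N) (hN : 0 ≤ N)
    (h1 : δn ≤ n / 200) (he : e = (100 * (1 + x))⁻¹) (hq : q' = x / 2)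
    (ha : n / 6 ≤ δn + ((3 * n + s) * e + 7 * (n + N) / q')) :
    n * x / 120 ≤ N := by
  by_contra hcon
  push Not at hcon
  have hx0 : 0 < x := by linarith
  have e1 : (3 * n + s) * e ≤ 3 * n / 100 := by
    rw [he, ← div_eq_mul_inv, div_le_div_iff₀ (by positivity) (by norm_num)]
    nlinarith
  have e2 : 7 * (n + N) / q' ≤ 14 * n / x + 14 * n / 120 := by
    rw [hq]
    have h2 : 7 * (n + N) / (x / 2) = 14 * n / x + 14 * N / x := by
      field_simp
      ring
    rw [h2]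
    have h3 : 14 * N / x ≤ 14 * n / 120 := by
      rw [div_le_div_iff₀ hx0 (by norm_num)]
      linarith
    linarith
  have e3 : 14 * n / x ≤ n / 200 := by
    rw [div_le_div_iff₀ hx0 (by norm_num)]
    nlinarith
  linarith

end Vale.Agent.P344.R2.H621
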