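import Vale.Agent.P344.R2.H621.NForm

/-!
# Cancellation
-/

set_option linter.unusedSectionVars false

namespace Vale.Agent.P344.R2.H621

open Matrix Filter Vale.Agent.P344

variable {ι κ : Type} [Fintype ι] [DecidableEq ι]

theorem nrm_pos {v : ι → ℂ} (hv : v ≠ 0) : 0 < nrm v := by
  obtain ⟨i, hi⟩ := Function.ne_iff.1 hv
  unfold nrm
  have h0 : 0 < ‖v i‖ := norm_pos_iff.2 hi
  refine Real.sqrt_pos.2 (lt_of_lt_of_le (by positivity : 0 < ‖v i‖ ^ 2) ?_)
  exact Finset.single_le_sum (f := fun i => ‖v i‖ ^ 2) (fun _ _ => by positivity)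
    (Finset.mem_univ i)

theorem nrm_smul' (c : ℂ) (v : ι → ℂ) : nrm (c • v) = ‖c‖ * nrm v := by
  unfold nrm
  have : ∑ i, ‖(c • v) i‖ ^ 2 = ‖c‖ ^ 2 * ∑ i, ‖v i‖ ^ 2 := by
    rw [Finset.mul_sum]
    refine Finset.sum_congr rfl fun i _ => ?_
    rw [Pi.smul_apply, smul_eq_mul, norm_mul, mul_pow]
  rw [this, Real.sqrt_mul (by positivity), Real.sqrt_sq (norm_nonneg c)]

theorem nrm_neg' (v : ι → ℂ) : nrm (-v) = nrm v := by
  simp [nrm]

theorem nrm_single (i : ι) : nrm (Pi.single i (1 : ℂ) : ι → ℂ) = 1 := by
  unfold nrm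
  rw [Finset.sum_eq_single i]
  · simp
  · intro j _ hj
    simp [Pi.single_eq_of_ne hj]
  · intro h
    exact absurd (Finset.mem_univ i) h

open Classical in
/-- The same gate, reading no zeros. -/
noncomputable def pgate {α : Type} (z : α) (x : α → ι → ℂ) : Gate α → Gate α
  | .add p q => if x p + x q = 0 then .smul 0 z else if x p = 0 then .smul 1 q else
      if x q = 0 then .smul 1 p else .add p q
  | .sub p q => if x p - x q = 0 then .smul 0 z else if x p = 0 then .smul (-1) q else
      if x q = 0 then .smul 1 p else .sub p q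
  | .smul c p => if c • x p = 0 then .smul 0 z else .smul c p

theorem pgate_eval {α : Type} (z : α) (x : α → ι → ℂ) (g : Gate α) :
    (pgate z x g).eval x = g.eval x := by
  cases g with
  | add p q =>
    simp only [pgate, Gate.eval]
    split_ifs with h1 h2 h3
    · simp [h1]
    · simp [h2]
    · simp [h3]
    · rfl
  | sub p q =>
    simp only [pgate, Gate.eval]
    split_ifs with h1 h2 h3
    · simp [h1]
    · simp [h2]
    · simp [h3]
    · rfl
  | smul c p =>
    simp only [pgate, Gate.eval]
    split_ifs with h1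
    · simp [h1]
    · rfl

theorem pgate_args {α : Type} (z : α) (x : α → ι → ℂ) (g : Gate α) :
    ∀ a ∈ (pgate z x g).args, a = z ∨ a ∈ g.args := by
  intro a ha
  cases g with
  | add p q =>
    simp only [pgate] at ha
    split_ifs at ha with h1 h2 h3 <;> simp [Gate.args] at ha ⊢ <;> tauto
  | sub p q =>
    simp only [pgate] at ha
    split_ifs at ha with h1 h2 h3 <;> simp [Gate.args] at ha ⊢ <;> tauto
  | smul c p =>
    simp only [pgate] at ha
    split_ifs at ha with h1 <;> simp [Gate.args] at ha ⊢ <;> tauto

open Classical in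
/-- The scale. -/
noncomputable def scl {α : Type} (x : α → ι → ℂ) (a : α) : ℝ := if x a = 0 then 1 else nrm (x a)

theorem scl_pos {α : Type} (x : α → ι → ℂ) (a : α) : 0 < scl x a := by
  unfold scl
  split_ifs with h
  · exact one_pos
  · exact nrm_pos h

/-- The pruned circuit. -/
noncomputable def prune (C : Circuit ι κ) (f : C.G → ι → ℂ) : Circuit ι κ where
  G := C.G
  fin := C.fin
  dec := C.dec
  gate g := pgate (.inl none) (C.cell f) (C.gate g)
  depth := C.depth
  depth_pos := C.depth_pos
  depth_lt g g' h := by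
    rcases pgate_args _ _ _ _ h with h | h
    · exact absurd h (by simp)
    · exact C.depth_lt g g' h
  out := C.out

theorem prune_cell (C : Circuit ι κ) (f : C.G → ι → ℂ) : (prune C f).cell f = C.cell f := by
  funext k
  rcases k with (_ | k) | k <;> rfl

theorem prune_isForms {C : Circuit ι κ} {f : C.G → ι → ℂ} (hf : C.IsForms f) :
    (prune C f).IsForms f := by
  intro g
  rw [prune_cell, hf g]
  exact (pgate_eval _ _ _).symm

theorem prune_gain {C : Circuit ι ι} {f : C.G → ι → ℂ} (hf : C.IsForms f) (g : C.G) :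
    gain (prune C f) (scl ((prune C f).cell f)) g ≤ canc C f g := by
  have hcell : C.cell f (.inr g) = (C.gate g).eval (C.cell f) := hf g
  have hfg : f g = (C.gate g).eval (C.cell f) := hf g
  have hs : scl (C.cell f) (.inr g) = if f g = 0 then 1 else nrm (f g) := by
    unfold scl
    rfl
  have h0 : ∀ p, C.cell f p ≠ 0 → scl (C.cell f) p = nrm (C.cell f p) := fun p hp => by
    unfold scl
    rw [if_neg hp]
  unfold canc
  rw [prune_cell]
  change max 0 (Real.log (reach (scl (C.cell f)) (pgate (.inl none) (C.cell f) (C.gate g)) /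
    scl (C.cell f) (Sum.inr g : Option ι ⊕ C.G))) ≤ _
  have hlog : ∀ a b : ℝ, a = b → Real.log (a / b) = 0 := by
    intro a b hab
    rw [hab]
    rcases eq_or_ne b 0 with h | h
    · simp [h]
    · rw [div_self h, Real.log_one]
  cases hg : C.gate g with
  | add p q =>
    rw [hg] at hfg
    simp only [Gate.eval] at hfg
    simp only [pgate]
    split_ifs with h1 h2 h3
    · simp [reach]
    · refine max_le (le_max_left _ _) (le_trans (le_of_eq ?_) (le_max_left _ _))
      have hq : C.cell f q ≠ 0 := by
        intro h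
        exact h1 (by rw [h2, h, add_zero])
      refine hlog _ _ ?_
      rw [hs, hfg, if_neg h1, reach, h0 q hq, h2, zero_add, norm_one, one_mul]
    · refine max_le (le_max_left _ _) (le_trans (le_of_eq ?_) (le_max_left _ _))
      refine hlog _ _ ?_
      rw [hs, hfg, if_neg h1, reach, h0 p h2, h3, add_zero, norm_one, one_mul]
    · rw [hs, hfg, if_neg h1, reach, h0 p h2, h0 q h3]
  | sub p q =>
    rw [hg] at hfg
    simp only [Gate.eval] at hfg
    simp only [pgate]
    split_ifs with h1 h2 h3
    · simp [reach]
    · refine max_le (le_max_left _ _) (le_trans (le_of_eq ?_) (le_max_left _ _))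
      have hq : C.cell f q ≠ 0 := by
        intro h
        exact h1 (by rw [h2, h, sub_zero])
      refine hlog _ _ ?_
      rw [hs, hfg, if_neg h1, reach, h0 q hq, h2, zero_sub, nrm_neg', norm_neg, norm_one, one_mul]
    · refine max_le (le_max_left _ _) (le_trans (le_of_eq ?_) (le_max_left _ _))
      refine hlog _ _ ?_
      rw [hs, hfg, if_neg h1, reach, h0 p h2, h3, sub_zero, norm_one, one_mul]
    · rw [hs, hfg, if_neg h1, reach, h0 p h2, h0 q h3]
  | smul c p =>
    rw [hg] at hfg
    simp only [Gate.eval] at hfg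
    simp only [pgate]
    split_ifs with h1
    · simp [reach]
    · refine max_le le_rfl (le_of_eq ?_)
      refine hlog _ _ ?_
      have hp : C.cell f p ≠ 0 := by
        intro h
        exact h1 (by rw [h, smul_zero])
      rw [hs, hfg, if_neg h1, reach, h0 p hp, nrm_smul']

/-- Size plus cancellation. -/
theorem canc_bound {γ : ℝ} (hγ : 0 < γ) : ∀ᶠ n : ℕ in atTop,
    ∀ U : Matrix (Fin n) (Fin n) ℂ, U * Uᴴ = 1 → (∀ i j, ‖U i j‖ ≤ (n : ℝ) ^ (-γ)) →
      ∀ (C : Circuit (Fin n) (Fin n)) (f : C.G → Fin n → ℂ) (ρ : ℝ), C.IsForms f → 0 < ρ →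
        (∀ j i, C.cell f (C.out j) i = ρ * U j i) →
          n * Real.log (Real.log n) / 120 ≤ Fintype.card C.G + ∑ g, canc C f g := by
  filter_upwards [circuit_bound hγ] with n hn U hU hδ C f ρ hf hρ hout
  have h := hn U hU hδ (prune C f) f ρ (prune_isForms hf) hρ
    (fun j i => by rw [prune_cell]; exact hout j i) (scl ((prune C f).cell f)) (scl_pos _) ?_
  · have h1 : ∀ j, scl ((prune C f).cell f) ((prune C f).out j) = ρ := by
      intro j
      have h2 : (prune C f).cell f ((prune C f).out j) = (ρ : ℂ) • U j := by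
        funext i
        rw [prune_cell]
        exact hout j i
      have h3 : nrm (U j) = 1 := by
        have h4 := congrFun (congrFun hU j) j
        rw [mul_apply, one_apply_eq] at h4
        have h5 : (∑ i, ‖U j i‖ ^ 2 : ℝ) = 1 := by
          have h6 : ((∑ i, ‖U j i‖ ^ 2 : ℝ) : ℂ) = 1 := by
            rw [← h4]
            push_cast
            refine Finset.sum_congr rfl fun i _ => ?_
            rw [conjTranspose_apply, Complex.star_def, Complex.mul_conj, Complex.normSq_eq_norm_sq]
            push_cast
            rfl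
          exact_mod_cast h6
        unfold nrm
        rw [h5, Real.sqrt_one]
      have h7 : nrm ((prune C f).cell f ((prune C f).out j)) = ρ := by
        rw [h2, nrm_smul', h3, mul_one, Complex.norm_real, Real.norm_of_nonneg hρ.le]
      have h8 : (prune C f).cell f ((prune C f).out j) ≠ 0 := by
        intro h
        rw [h, nrm_zero] at h7
        exact hρ.ne h7
      unfold scl
      rw [if_neg h8, h7]
    have h10 : ∑ j, max 0 (Real.log (scl ((prune C f).cell f) ((prune C f).out j) / ρ)) = 0 := by
      refine Finset.sum_eq_zero fun j _ => ?_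
      rw [h1 j, div_self hρ.ne', Real.log_one, max_self]
    rw [h10, add_zero] at h
    refine h.trans ?_
    have h11 : ∑ g, gain (prune C f) (scl ((prune C f).cell f)) g ≤ ∑ g, canc C f g :=
      Finset.sum_le_sum fun g _ => prune_gain hf g
    have h12 : Fintype.card (prune C f).G = Fintype.card C.G := rfl
    rw [h12]
    exact add_le_add le_rfl h11
  · intro k
    rcases k with _ | k
    · unfold scl
      have : (prune C f).cell f (Sum.inl none) = 0 := rfl
      rw [if_pos this]
    · unfold scl
      have h2 : (prune C f).cell f (Sum.inl (some k)) = Pi.single k 1 := rfl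
      rw [h2, if_neg, nrm_single]
      intro h3
      have := congrFun h3 k
      simp at this

end Vale.Agent.P344.R2.H621
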