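import Vale.Agent.P344.H952.CDefs

/-!
# Scales and cancellation
-/

namespace Vale.Agent.P344.R2.H621

open Vale.Agent.P344

/-- The closed disc of radius `K`. -/
def disc (K : ℝ) : Set ℂ := {z | ‖z‖ ≤ K}

/-- The transform `ρ F_n`. -/
noncomputable def sdft (ρ : ℝ) (n : ℕ) (j : Fin n) (x : Fin n → ℂ) : ℂ := ρ * dft n j x

/-- The cancellation at gate `g`: for an addition or subtraction of `p` and `q`, the logarithm of
`max (|p|, |q|)` divided by the norm of the result, if this is positive; `0` for scalar
multiplications and for gates computing zero (here `Real.log 0 = 0`). -/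
noncomputable def canc {ι κ : Type} [Fintype ι] [DecidableEq ι] (C : Circuit ι κ)
    (f : C.G → ι → ℂ) (g : C.G) : ℝ :=
  match C.gate g with
  | .add p q => max 0 (Real.log (max (nrm (C.cell f p)) (nrm (C.cell f q)) / nrm (f g)))
  | .sub p q => max 0 (Real.log (max (nrm (C.cell f p)) (nrm (C.cell f q)) / nrm (f g)))
  | .smul _ _ => 0

/-- The largest value of `t` at an argument of a gate, times the modulus of the coefficient for a
scalar multiplication. -/
noncomputable def reach {α : Type} (t : α → ℝ) : Gate α → ℝ
  | .add p q => max (t p) (t q)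
  | .sub p q => max (t p) (t q)
  | .smul c p => ‖c‖ * t p

/-- How much the scale `t` drops at a gate, logarithmically. -/
noncomputable def gain {ι : Type} (C : Circuit ι ι) (t : Option ι ⊕ C.G → ℝ) (g : C.G) : ℝ :=
  max 0 (Real.log (reach t (C.gate g) / t (.inr g)))

end Vale.Agent.P344.R2.H621
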