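import Vale.Agent.P344.R2.H621.System
import Vale.Agent.P344.R2.H621.Defs
import Vale.Agent.P344.H952.CUniq
import Vale.Agent.P344.H952.CConv

/-!
# Circuits as sparse systems
-/

set_option linter.unusedSectionVars false

namespace Vale.Agent.P344.R2.H621

open Matrix Finset Vale.Agent.P344
open scoped ComplexOrder

/-- How often a gate reads the cell `k`. -/
def reads {α : Type} [DecidableEq α] (k : α) : Gate α → ℝ
  | .add p q => (if p = k then 1 else 0) + (if q = k then 1 else 0)
  | .sub p q => (if p = k then 1 else 0) + (if q = k then 1 else 0)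
  | .smul _ p => if p = k then 1 else 0

section Gate

variable {α : Type} [DecidableEq α]

theorem reads_nonneg (k : α) (g : Gate α) : 0 ≤ reads k g := by
  cases g <;> simp only [reads] <;> split_ifs <;> norm_num

theorem sum_reads [Fintype α] (g : Gate α) : ∑ k, reads k g ≤ 2 := by
  cases g <;> simp only [reads, Finset.sum_add_distrib, Finset.sum_ite_eq, Finset.mem_univ,
    if_true] <;> norm_num

theorem coef_le (k : α) (g : Gate α) {t : α → ℝ} (ht : ∀ a, 0 < t a) :
    ‖g.coef k‖ * t k ≤ reads k g * reach t g := by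
  have ite_norm : ∀ p : Prop, ∀ _ : Decidable p, ‖(if p then (1 : ℂ) else 0)‖ =
      if p then (1 : ℝ) else 0 := by
    intro p _
    split_ifs <;> simp
  cases g with
  | add p q =>
    simp only [Gate.coef, reads, reach]
    have h1 : ‖(if p = k then (1 : ℂ) else 0) + (if q = k then 1 else 0)‖ ≤
        (if p = k then (1 : ℝ) else 0) + (if q = k then 1 else 0) := by
      refine (norm_add_le _ _).trans (le_of_eq ?_)
      rw [ite_norm, ite_norm]
    refine (mul_le_mul_of_nonneg_right h1 (ht k).le).trans ?_
    split_ifs with hp hq hq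
    · subst hp
      have := le_max_left (t p) (t q)
      nlinarith
    · subst hp
      have := le_max_left (t p) (t q)
      nlinarith
    · subst hq
      have := le_max_right (t p) (t q)
      nlinarith
    · simp
  | sub p q =>
    simp only [Gate.coef, reads, reach]
    have h1 : ‖(if p = k then (1 : ℂ) else 0) - (if q = k then 1 else 0)‖ ≤
        (if p = k then (1 : ℝ) else 0) + (if q = k then 1 else 0) := by
      refine (norm_sub_le _ _).trans (le_of_eq ?_)
      rw [ite_norm, ite_norm]
    refine (mul_le_mul_of_nonneg_right h1 (ht k).le).trans ?_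
    split_ifs with hp hq hq
    · subst hp
      have := le_max_left (t p) (t q)
      nlinarith
    · subst hp
      have := le_max_left (t p) (t q)
      nlinarith
    · subst hq
      have := le_max_right (t p) (t q)
      nlinarith
    · simp
  | smul c p =>
    simp only [Gate.coef, reads, reach]
    split_ifs with hp
    · subst hp
      simp
    · simp

end Gate

variable {ι : Type} [Fintype ι] [DecidableEq ι] (C : Circuit ι ι)

/-- The coefficients with which the cells read each other. -/
def coefM : Matrix (Option ι ⊕ C.G) (Option ι ⊕ C.G) ℂ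
  | .inl _, _ => 0
  | .inr g, k => (C.gate g).coef k

/-- The inputs. -/
def inM : Matrix (Option ι ⊕ C.G) ι ℂ
  | .inl (some j), i => if j = i then 1 else 0
  | .inl none, _ => 0
  | .inr _, _ => 0

/-- The forms in the cells. -/
def formM (f : C.G → ι → ℂ) : Matrix (Option ι ⊕ C.G) ι ℂ := fun k i => C.cell f k i

theorem form_eq {f : C.G → ι → ℂ} (hf : C.IsForms f) :
    (1 - coefM C) * formM C f = inM C := by
  rw [Matrix.sub_mul, Matrix.one_mul]
  ext k i
  rw [Matrix.sub_apply, Matrix.mul_apply]
  rcases k with (_ | j) | g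
  · simp [coefM, inM, formM, Circuit.cell]
  · simp only [coefM, inM, formM, Circuit.cell, zero_mul, Finset.sum_const_zero, sub_zero,
      Pi.single_apply]
    simp only [eq_comm]
  · simp only [coefM, inM]
    have h1 : formM C f (Sum.inr g) i = f g i := rfl
    rw [h1, congrFun (hf g) i, Gate.eval_apply, Gate.lin_eq_sum, sub_eq_zero]
    refine sum_congr rfl fun k _ => ?_
    rw [mul_comm]
    rfl

theorem coefM_eq_zero {k k' : Option ι ⊕ C.G} (h : ¬ C.dep k' < C.dep k) :
    coefM C k k' = 0 := by
  rcases k with k | g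
  · rfl
  · by_contra hne
    have h1 : k' ∈ (C.gate g).args := by
      by_contra h2
      exact hne (Gate.coef_eq_zero h2)
    apply h
    rcases k' with k' | g'
    · exact C.depth_pos g
    · exact C.depth_lt g g' h1

theorem det_one_sub_coefM : (1 - coefM C).det = 1 := by
  have hbt : BlockTriangular (1 - coefM C) (fun k => OrderDual.toDual (C.dep k)) := by
    intro k k' hkk'
    have h1 : C.dep k < C.dep k' := OrderDual.toDual_lt_toDual.1 hkk'
    have h2 : k ≠ k' := fun h => by
      rw [h] at h1
      exact lt_irrefl _ h1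
    rw [Matrix.sub_apply, one_apply_ne h2, coefM_eq_zero C (by omega), sub_zero]
  rw [hbt.det]
  refine Finset.prod_eq_one fun a _ => ?_
  have : toSquareBlock (1 - coefM C) (fun k => OrderDual.toDual (C.dep k)) a = 1 := by
    ext ⟨k, hk⟩ ⟨k', hk'⟩
    have h1 : C.dep k = C.dep k' := OrderDual.toDual_inj.1 (hk.trans hk'.symm)
    simp only [toSquareBlock_def, Matrix.of_apply, Matrix.sub_apply]
    rw [coefM_eq_zero C (by omega), sub_zero]
    simp [Matrix.one_apply]
  rw [this, det_one]

/-- How often a cell is read, by gates and outputs. -/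
noncomputable def fan (k : Option ι ⊕ C.G) : ℝ :=
  (∑ g, reads k (C.gate g)) + ∑ j, if C.out j = k then 1 else 0

theorem fan_nonneg (k : Option ι ⊕ C.G) : 0 ≤ fan C k := by
  refine add_nonneg (sum_nonneg fun g _ => reads_nonneg _ _) (sum_nonneg fun j _ => ?_)
  split_ifs <;> norm_num

theorem sum_fan : ∑ k, fan C k ≤ 2 * Fintype.card C.G + Fintype.card ι := by
  unfold fan
  rw [sum_add_distrib, sum_comm, sum_comm (f := fun k j => if C.out j = k then (1 : ℝ) else 0)]
  refine add_le_add ?_ ?_
  · calc ∑ g, ∑ k, reads k (C.gate g) ≤ ∑ _g : C.G, (2 : ℝ) :=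
        sum_le_sum fun g _ => sum_reads _
      _ = 2 * Fintype.card C.G := by simp [mul_comm]
  · simp

theorem gain_nonneg (t : Option ι ⊕ C.G → ℝ) (g : C.G) : 0 ≤ gain C t g := le_max_left _ _

theorem reach_nonneg {α : Type} {t : α → ℝ} (ht : ∀ a, 0 < t a) (g : Gate α) :
    0 ≤ reach t g := by
  cases g with
  | add p q => exact (ht p).le.trans (le_max_left _ _)
  | sub p q => exact (ht p).le.trans (le_max_left _ _)
  | smul c p => exact mul_nonneg (norm_nonneg _) (ht p).le

theorem log_max {a b : ℝ} (ha : 0 ≤ a) (hb : 0 < b) :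
    Real.log (max b a) - Real.log b = max 0 (Real.log (a / b)) := by
  rcases le_total a b with h | h
  · rw [max_eq_left h, sub_self]
    rcases eq_or_lt_of_le ha with h0 | h0
    · rw [← h0]
      simp
    · rw [max_eq_left]
      exact Real.log_nonpos (by positivity) (by rw [div_le_one hb]; exact h)
  · have h0 : 0 < a := hb.trans_le h
    rw [max_eq_right h, ← Real.log_div h0.ne' hb.ne', max_eq_right]
    exact Real.log_nonneg (by rw [one_le_div hb]; exact h)

/-- The inequality for circuits that compute `ρ U`. -/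
theorem circuit_ineq {f : C.G → ι → ℂ} (hf : C.IsForms f) {U : Matrix ι ι ℂ}
    (hU : U * Uᴴ = 1) {δ : ℝ} (hδ : ∀ i j, ‖U i j‖ ≤ δ) {ρ : ℝ} (hρ : 0 < ρ)
    (hout : ∀ j i, C.cell f (C.out j) i = ρ * U j i)
    {t : Option ι ⊕ C.G → ℝ} (ht : ∀ k, 0 < t k) (ht1 : ∀ k, t (.inl k) = 1)
    (hn : 1 ≤ Fintype.card ι) {L q : ℝ} (hL : 0 ≤ L) {l : ℕ} (hq1 : 1 < q)
    (hq : q * (3 * L) ≤ (2 * l : ℕ)) :
    (Fintype.card ι : ℝ) / 6 ≤ δ * Fintype.card ι * 2 ^ (2 * l) +
      ((3 * Fintype.card ι + Fintype.card C.G) * Real.exp (-L) +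
        7 * (Fintype.card ι + Fintype.card C.G + ∑ g, gain C t g +
          ∑ j, max 0 (Real.log (t (C.out j) / ρ))) / Real.log q) := by
  classical
  let m : Option ι ⊕ C.G → ℝ := Sum.elim (fun _ => 1) fun g => max (t (.inr g)) (reach t (C.gate g))
  let F : Option ι ⊕ C.G → ℝ := fun k => 1 + fan C k
  have hm0 : ∀ k, 0 < m k := by
    rintro (k | g)
    · exact one_pos
    · exact (ht _).trans_le (le_max_left _ _)
  have hmt : ∀ k, t k ≤ m k := by
    rintro (k | g)
    · exact (ht1 k).le
    · exact le_max_left _ _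
  have hF1 : ∀ k, 1 ≤ F k := fun k => by
    have := fan_nonneg C k
    simp only [F]
    linarith
  have hF0 : ∀ k, 0 < F k := fun k => one_pos.trans_le (hF1 k)
  let T : Matrix (Option ι ⊕ C.G) (Option ι ⊕ C.G) ℂ :=
    diagonal (fun k => (((m k)⁻¹ : ℝ) : ℂ)) * (1 - coefM C) *
      diagonal (fun k => ((t k / F k : ℝ) : ℂ))
  let V : Matrix (Option ι ⊕ C.G) ι ℂ :=
    diagonal (fun k => ((F k / t k : ℝ) : ℂ)) * formM C f
  let r : ι → ℝ := fun j => ρ / max ρ (t (C.out j))
  let B : Matrix ι (Option ι ⊕ C.G) ℂ := fun j k =>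
    if C.out j = k then ((t k / (F k * max ρ (t k)) : ℝ) : ℂ) else 0
  have hdd : diagonal (fun k => ((t k / F k : ℝ) : ℂ)) * diagonal (fun k => ((F k / t k : ℝ) : ℂ)) =
      (1 : Matrix (Option ι ⊕ C.G) (Option ι ⊕ C.G) ℂ) := by
    rw [diagonal_mul_diagonal, ← diagonal_one]
    congr 1
    funext k
    rw [← Complex.ofReal_mul]
    have h1 := (ht k).ne'
    have h2 := (hF0 k).ne'
    have : t k / F k * (F k / t k) = 1 := by field_simp
    rw [this, Complex.ofReal_one]
  have hV : T * V = inM C := by
    have h1 : T * V = diagonal (fun k => (((m k)⁻¹ : ℝ) : ℂ)) * ((1 - coefM C) *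
        ((diagonal (fun k => ((t k / F k : ℝ) : ℂ)) *
          diagonal (fun k => ((F k / t k : ℝ) : ℂ))) * formM C f)) := by
      simp only [T, V, Matrix.mul_assoc]
    rw [h1, hdd, Matrix.one_mul, form_eq C hf]
    ext k i
    rw [diagonal_mul]
    rcases k with (_ | k) | g
    · simp [inM]
    · simp [inM, m]
    · simp [inM]
  have hTdet : T.det = ((∏ k, ((m k)⁻¹ * (t k / F k)) : ℝ) : ℂ) := by
    simp only [T, det_mul, det_diagonal, det_one_sub_coefM, mul_one]
    rw [← prod_mul_distrib]
    push_cast
    rfl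
  have hprod : 0 < ∏ k, ((m k)⁻¹ * (t k / F k)) := prod_pos fun k _ => by
    have h1 := hm0 k
    have h2 := ht k
    have h3 := hF0 k
    positivity
  have hT : T.det ≠ 0 := by
    rw [hTdet]
    exact_mod_cast hprod.ne'
  have hlogT : Real.log ‖T.det‖ = -(∑ g, gain C t g) - ∑ k, Real.log (F k) := by
    rw [hTdet, Complex.norm_real, Real.norm_of_nonneg hprod.le, Real.log_prod fun k _ => by
      have h1 := hm0 k
      have h2 := ht k
      have h3 := hF0 k
      positivity]
    have h1 : ∀ k, Real.log ((m k)⁻¹ * (t k / F k)) =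
        -(Real.log (m k) - Real.log (t k)) - Real.log (F k) := by
      intro k
      rw [Real.log_mul (inv_ne_zero (hm0 k).ne') (div_pos (ht k) (hF0 k)).ne', Real.log_inv,
        Real.log_div (ht k).ne' (hF0 k).ne']
      ring
    simp only [h1, sum_sub_distrib, sum_neg_distrib]
    congr 2
    rw [← sum_sub_distrib, Fintype.sum_sum_type]
    have h2 : ∑ k : Option ι, (Real.log (m (Sum.inl k)) - Real.log (t (Sum.inl k))) = 0 := by
      refine sum_eq_zero fun k _ => ?_
      simp [m, ht1]
    rw [h2, zero_add]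
    refine sum_congr rfl fun g _ => ?_
    exact log_max (reach_nonneg ht _) (ht _)
  have hT_apply : ∀ k k', ‖T k k'‖ = (m k)⁻¹ * ‖(1 - coefM C) k k'‖ * (t k' / F k') := by
    intro k k'
    simp only [T, mul_diagonal, diagonal_mul, norm_mul, Complex.norm_real]
    rw [Real.norm_of_nonneg (inv_nonneg.2 (hm0 k).le),
      Real.norm_of_nonneg (div_nonneg (ht k').le (hF0 k').le)]
  have hdiag : ∀ k, ‖T k k‖ ≤ 1 / F k := by
    intro k
    rw [hT_apply, Matrix.sub_apply, Matrix.one_apply_eq, coefM_eq_zero C (lt_irrefl _), sub_zero,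
      norm_one, mul_one]
    have h1 : (m k)⁻¹ * (t k / F k) = (t k / m k) * (1 / F k) := by
      rw [inv_eq_one_div]
      ring
    rw [h1]
    have h2 : t k / m k ≤ 1 := by
      rw [div_le_one (hm0 k)]
      exact hmt k
    have h3 : 0 ≤ 1 / F k := by
      have := hF0 k
      positivity
    nlinarith
  have hoff : ∀ g k', Sum.inr g ≠ k' → ‖T (Sum.inr g) k'‖ ≤ reads k' (C.gate g) / F k' := by
    intro g k' hne
    rw [hT_apply, Matrix.sub_apply, Matrix.one_apply_ne hne, zero_sub, norm_neg]
    have h1 : ‖coefM C (Sum.inr g) k'‖ = ‖(C.gate g).coef k'‖ := rfl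
    have h2 := coef_le k' (C.gate g) ht
    have h3 : reads k' (C.gate g) * reach t (C.gate g) ≤ reads k' (C.gate g) * m (Sum.inr g) :=
      mul_le_mul_of_nonneg_left (le_max_right _ _) (reads_nonneg _ _)
    rw [h1]
    have h4 := hm0 (Sum.inr g)
    have h5 := hF0 k'
    have h6 : (m (Sum.inr g))⁻¹ * ‖(C.gate g).coef k'‖ * (t k' / F k') =
        (‖(C.gate g).coef k'‖ * t k') / (m (Sum.inr g) * F k') := by
      field_simp
    rw [h6, div_le_div_iff₀ (by positivity) h5]
    calc ‖(C.gate g).coef k'‖ * t k' * F k' ≤ (reads k' (C.gate g) * m (Sum.inr g)) * F k' :=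
          mul_le_mul_of_nonneg_right (h2.trans h3) h5.le
      _ = reads k' (C.gate g) * (m (Sum.inr g) * F k') := by ring
  have hoffl : ∀ a k', Sum.inl a ≠ k' → ‖T (Sum.inl a) k'‖ = 0 := by
    intro a k' hne
    rw [hT_apply, Matrix.sub_apply, Matrix.one_apply_ne hne]
    simp [coefM]
  -- the entries of `T`
  have hTall : ∀ k k', ‖T k k'‖ ≤ (if k = k' then 1 / F k' else 0) +
      (Sum.elim (fun _ => 0) (fun g => reads k' (C.gate g) / F k') k : ℝ) := by
    intro k k'
    by_cases h : k = k'
    · subst h
      rw [if_pos rfl]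
      have h1 : 0 ≤ (Sum.elim (fun _ => 0) (fun g => reads k (C.gate g) / F k) k : ℝ) := by
        rcases k with k | g
        · exact le_rfl
        · exact div_nonneg (reads_nonneg _ _) (hF0 _).le
      linarith [hdiag k]
    · rw [if_neg h, zero_add]
      rcases k with k | g
      · exact (hoffl k k' h).le
      · exact hoff g k' h
  have hBn : ∀ j k, ‖B j k‖ ≤ (if C.out j = k then 1 else 0) / F k := by
    intro j k
    simp only [B]
    split_ifs with h
    · have h1 := ht k
      have h2 := hF0 k
      have h3 : 0 < max ρ (t k) := hρ.trans_le (le_max_left _ _)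
      rw [Complex.norm_real, Real.norm_of_nonneg (by positivity), div_le_div_iff₀ (by positivity) h2]
      have h4 : t k ≤ max ρ (t k) := le_max_right _ _
      nlinarith
    · simp
  have hmain := system_ineq (V := V) (B := B) (r := r) hU hδ hT hV ?_ ?_ ?_ ?_ ?_ ?_ ?_ hn hL hq1 hq
  · -- conclusion
    refine hmain.trans ?_
    have hlogq : 0 < Real.log q := Real.log_pos hq1
    have hcard : ((Fintype.card (Option ι ⊕ C.G) : ℕ) : ℝ) =
        Fintype.card ι + 1 + Fintype.card C.G := by
      simp only [Fintype.card_sum, Fintype.card_option]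
      push_cast
      ring
    have hn1 : (1 : ℝ) ≤ Fintype.card ι := by exact_mod_cast hn
    have hF : ∑ k, Real.log (F k) ≤ 2 * Fintype.card C.G + Fintype.card ι := by
      refine le_trans (sum_le_sum fun k _ => ?_) (sum_fan C)
      have := Real.log_le_sub_one_of_pos (hF0 k)
      simp only [F] at this ⊢
      linarith
    have hr : -∑ j, Real.log (r j) = ∑ j, max 0 (Real.log (t (C.out j) / ρ)) := by
      rw [← sum_neg_distrib]
      refine sum_congr rfl fun j _ => ?_
      rw [← log_max (ht _).le hρ]
      simp only [r]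
      rw [Real.log_div hρ.ne' (hρ.trans_le (le_max_left _ _)).ne']
      ring
    have hgain : 0 ≤ ∑ g, gain C t g := sum_nonneg fun g _ => gain_nonneg C t g
    have hout0 : 0 ≤ ∑ j, max 0 (Real.log (t (C.out j) / ρ)) :=
      sum_nonneg fun j _ => le_max_left _ _
    have hG0 : (0 : ℝ) ≤ Fintype.card C.G := Nat.cast_nonneg _
    have hexp := Real.exp_pos (-L)
    have e1 : 1 / 2 * ((Fintype.card ι + (Fintype.card (Option ι ⊕ C.G) : ℕ)) * Real.exp (-L)) ≤
        (3 * Fintype.card ι + Fintype.card C.G) * Real.exp (-L) := by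
      rw [hcard, ← mul_assoc]
      refine mul_le_mul_of_nonneg_right ?_ hexp.le
      linarith
    have e2 : 1 / 2 * ((4 * Fintype.card ι + (Fintype.card (Option ι ⊕ C.G) : ℕ) -
        6 * Real.log ‖T.det‖ - 2 * ∑ j, Real.log (r j)) / Real.log q) ≤
        7 * (Fintype.card ι + Fintype.card C.G + ∑ g, gain C t g +
          ∑ j, max 0 (Real.log (t (C.out j) / ρ))) / Real.log q := by
      rw [← mul_div_assoc]
      refine div_le_div_of_nonneg_right ?_ hlogq.le
      rw [hcard, hlogT]
      linarith
    linarith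
  · intro j
    simp only [r]
    have := hρ.trans_le (le_max_left ρ (t (C.out j)))
    positivity
  · intro j
    simp only [r]
    have := hρ.trans_le (le_max_left ρ (t (C.out j)))
    rw [div_le_one this]
    exact le_max_left _ _
  · intro j i
    have hVk : ∀ k, V k i = ((F k / t k : ℝ) : ℂ) * formM C f k i := fun k => by
      simp only [V, diagonal_mul]
    have hBk : ∀ k, B j k = if C.out j = k then ((t k / (F k * max ρ (t k)) : ℝ) : ℂ) else 0 :=
      fun k => rfl
    rw [Matrix.mul_apply]
    simp only [hVk, hBk, r, ite_mul, zero_mul, Finset.sum_ite_eq, Finset.mem_univ, if_true]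
    have h1 : formM C f (C.out j) i = ρ * U j i := hout j i
    rw [h1]
    have h2 := ht (C.out j)
    have h3 := hF0 (C.out j)
    have h4 := hρ.trans_le (le_max_left ρ (t (C.out j)))
    have h5 : (t (C.out j) / (F (C.out j) * max ρ (t (C.out j)))) *
        ((F (C.out j) / t (C.out j)) * ρ) = ρ / max ρ (t (C.out j)) := by
      field_simp
    rw [← h5]
    push_cast
    ring
  · intro i
    have h1 : ∀ k, ‖inM C k i‖ = if k = Sum.inl (some i) then 1 else 0 := by
      rintro ((_ | k) | g)
      · simp [inM]
      · by_cases hk : k = i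
        · simp [inM, hk]
        · simp [inM, hk]
      · simp [inM]
    simp [h1]
  · intro k
    have h1 : ∑ j, ‖B j k‖ ≤ (∑ j, if C.out j = k then 1 else 0) / F k := by
      rw [sum_div]
      exact sum_le_sum fun j _ => hBn j k
    have h2 : ∑ k', ‖T k' k‖ ≤ 1 / F k + (∑ g, reads k (C.gate g)) / F k := by
      refine (sum_le_sum fun k' _ => hTall k' k).trans (le_of_eq ?_)
      rw [sum_add_distrib, Finset.sum_ite_eq', if_pos (mem_univ _), Fintype.sum_sum_type, sum_div]
      simp
    have h3 := hF0 k
    have h4 : 1 / F k + (∑ g, reads k (C.gate g)) / F k +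
        (∑ j, if C.out j = k then 1 else 0) / F k = 1 := by
      rw [← add_div, ← add_div, div_eq_one_iff_eq h3.ne']
      simp only [F, fan]
      ring
    linarith
  · intro j
    have h1 : ∑ k, ‖B j k‖ ≤ 1 := by
      refine (sum_le_sum fun k _ => hBn j k).trans ?_
      have h2 : ∀ k, (if C.out j = k then (1 : ℝ) else 0) / F k =
          if C.out j = k then 1 / F k else 0 := by
        intro k
        split_ifs <;> simp
      simp only [h2, Finset.sum_ite_eq, Finset.mem_univ, if_true]
      rw [div_le_one (hF0 _)]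
      exact hF1 _
    linarith
  · intro k
    have h1 : ∑ i, ‖inM C k i‖ ≤ Sum.elim (fun _ => 1) (fun _ => 0) k := by
      rcases k with (_ | k) | g
      · simp [inM]
      · have : ∀ i, ‖inM C (Sum.inl (some k)) i‖ = if k = i then 1 else 0 := by
          intro i
          by_cases hk : k = i
          · simp [inM, hk]
          · simp [inM, hk]
        simp [this]
      · simp [inM]
    have h2 : ∑ k', ‖T k k'‖ ≤ 1 + Sum.elim (fun _ => 0) (fun _ => 2) k := by
      have h3 : ∑ k', (if k = k' then 1 / F k' else 0) ≤ 1 := by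
        rw [Finset.sum_ite_eq, if_pos (mem_univ _), div_le_one (hF0 _)]
        exact hF1 _
      refine (sum_le_sum fun k' _ => hTall k k').trans ?_
      rw [sum_add_distrib]
      refine add_le_add h3 ?_
      rcases k with k | g
      · simp
      · simp only [Sum.elim_inr]
        refine le_trans (sum_le_sum fun k' _ => ?_) (sum_reads (C.gate g))
        exact div_le_self (reads_nonneg _ _) (hF1 _)
    rcases k with k | g
    · simp only [Sum.elim_inl] at h1 h2
      linarith
    · simp only [Sum.elim_inr] at h1 h2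
      linarith

end Vale.Agent.P344.R2.H621
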