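import Mathlib

/-!
# The Walsh–Hadamard matrix is a cyclic correlation away from `0`

Additive characters of the field with `2 ^ a` elements.
-/

namespace Vale.Agent.P344.R2.H621

open Finset

/-- `(-1)^t` for `t : ZMod 2`. -/
noncomputable def sgn (t : ZMod 2) : ℂ := (-1) ^ t.val

theorem sgn_natCast (m : ℕ) : sgn (m : ZMod 2) = (-1) ^ m := by
  unfold sgn
  rw [ZMod.val_natCast]
  conv_rhs => rw [← Nat.div_add_mod m 2, pow_add, pow_mul]
  norm_num

theorem zmod2_ne {t : ZMod 2} (h : t ≠ 0) : t = 1 := by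
  revert t
  decide

theorem zmod2_eq {t u : ZMod 2} (h : t ≠ 0 ↔ u ≠ 0) : t = u := by
  revert t u
  decide

/-- Away from `∅`, the Walsh–Hadamard matrix is a correlation matrix of order `2 ^ a - 1`. -/
theorem exists_log {a : ℕ} (ha : 1 ≤ a) :
    ∃ (h : ℕ → ℂ) (α : Finset (Fin a) → ℕ) (β : ℕ → Finset (Fin a)),
      (∀ t, h (t + (2 ^ a - 1)) = h t) ∧
      (∀ k, β k ≠ ∅) ∧
      (∀ k < 2 ^ a - 1, ∀ l < 2 ^ a - 1, β k = β l → k = l) ∧
      (∀ S k, S ≠ ∅ → (-1 : ℂ) ^ (S ∩ β k).card = h (α S + k)) := by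
  classical
  have : Fact (Nat.Prime 2) := ⟨Nat.prime_two⟩
  let K := GaloisField 2 a
  have hfr : Module.finrank (ZMod 2) K = a := GaloisField.finrank 2 (by omega)
  let b : Module.Basis (Fin a) (ZMod 2) K := Module.finBasisOfFinrankEq (ZMod 2) K hfr
  have : Finite K := Module.finite_of_finite (ZMod 2)
  let _ : Fintype K := Fintype.ofFinite K
  have hcard : Fintype.card K = 2 ^ a := by
    rw [← Nat.card_eq_fintype_card]
    exact GaloisField.card 2 a (by omega)
  have hunits : Fintype.card Kˣ = 2 ^ a - 1 := by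
    rw [Fintype.card_units, hcard]
  obtain ⟨tr, htr⟩ : ∃ tr : K →ₗ[ZMod 2] ZMod 2, tr = Algebra.trace (ZMod 2) K := ⟨_, rfl⟩
  have hnd : ∀ y : K, (∀ i, tr (b i * y) = 0) → y = 0 := by
    intro y hy
    have h1 : ∀ x : K, tr (x * y) = 0 := by
      intro x
      have : (tr ∘ₗ LinearMap.mulRight (ZMod 2) y) = 0 := by
        refine b.ext fun i => ?_
        simpa using hy i
      have := congrArg (fun f => f x) this
      simpa using this
    have h2 := traceForm_nondegenerate (ZMod 2) K
    refine h2.2 y fun x => ?_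
    rw [Algebra.traceForm_apply, ← htr]
    exact h1 x
  -- the two parametrisations
  let xs : Finset (Fin a) → K := fun S => ∑ i ∈ S, b i
  have hxs : ∀ S, S ≠ ∅ → xs S ≠ 0 := by
    intro S hS h0
    obtain ⟨i, hi⟩ := Finset.nonempty_iff_ne_empty.2 hS
    have hli := b.linearIndependent
    rw [Fintype.linearIndependent_iff] at hli
    have h1 := hli (fun j => if j ∈ S then 1 else 0) (by
      simp only [ite_smul, one_smul, zero_smul, Finset.sum_ite_mem, Finset.univ_inter]
      exact h0) i
    simp [hi] at h1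
  let T : K → Finset (Fin a) := fun y => univ.filter fun i => tr (b i * y) ≠ 0
  have hT : ∀ S y, sgn (tr (xs S * y)) = (-1) ^ (S ∩ T y).card := by
    intro S y
    have h1 : tr (xs S * y) = ((S ∩ T y).card : ZMod 2) := by
      have h0 : tr (xs S * y) = ∑ i ∈ S, tr (b i * y) := by
        rw [← map_sum, ← Finset.sum_mul]
      have h2 : ∀ i ∈ S, tr (b i * y) = if i ∈ T y then 1 else 0 := by
        intro i _
        simp only [T, Finset.mem_filter, Finset.mem_univ, true_and]
        split_ifs with h4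
        · exact zmod2_ne h4
        · exact not_not.1 h4
      rw [h0, Finset.sum_congr rfl h2, Finset.sum_ite_mem]
      simp
    rw [h1, sgn_natCast]
  have hTinj : Function.Injective T := by
    intro y z hyz
    have h4 : ∀ i, tr (b i * y) = tr (b i * z) := by
      intro i
      apply zmod2_eq
      have := Finset.ext_iff.1 hyz i
      simpa [T] using this
    have h5 : y - z = 0 := by
      apply hnd
      intro i
      rw [mul_sub, map_sub, h4 i, sub_self]
    exact sub_eq_zero.1 h5
  obtain ⟨g, hg⟩ := IsCyclic.exists_generator (α := Kˣ)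
  have hord : orderOf g = 2 ^ a - 1 := by
    rw [orderOf_eq_card_of_forall_mem_zpowers hg, Nat.card_eq_fintype_card, hunits]
  have hlog : ∀ S : Finset (Fin a), ∃ t : ℕ, S ≠ ∅ → ((g ^ t : Kˣ) : K) = xs S := by
    intro S
    by_cases hS : S = ∅
    · exact ⟨0, fun h => absurd hS h⟩
    · have h1 := hg (Units.mk0 (xs S) (hxs S hS))
      rw [mem_zpowers_iff_mem_range_orderOf] at h1
      obtain ⟨t, _, ht⟩ := Finset.mem_image.1 h1
      refine ⟨t, fun _ => ?_⟩
      rw [ht]
      rfl
  choose α hα using hlog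
  refine ⟨fun t => sgn (tr ((g ^ t : Kˣ) : K)), α, fun k => T ((g ^ k : Kˣ) : K), ?_, ?_, ?_, ?_⟩
  · intro t
    simp only
    rw [← hord, pow_add, pow_orderOf_eq_one, mul_one]
  · intro k hk
    have h0 : T 0 = ∅ := by
      simp [T]
    have := hTinj (hk.trans h0.symm)
    exact (Units.ne_zero _) this
  · intro k hk l hl hkl
    have h1 := Units.ext (hTinj hkl)
    rw [← hord] at hk hl
    exact pow_injOn_Iio_orderOf (by simpa using hk) (by simpa using hl) h1
  · intro S k hS
    simp only
    rw [← hT, pow_add, Units.val_mul, hα S hS]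

end Vale.Agent.P344.R2.H621
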