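import Vale.Agent.P344.R2.H621.Lin

/-!
# Projections and polynomials
-/

set_option linter.unusedSectionVars false

namespace Vale.Agent.P344.R2.H621

open Matrix Finset
open scoped ComplexOrder

variable {R N ι W : Type} [Fintype R] [Fintype N] [Fintype ι] [Fintype W]
  [DecidableEq R] [DecidableEq N] [DecidableEq ι] [DecidableEq W]

/-- The projection onto the kernel of `A`, written in two ways. -/
theorem proj_identity {A : Matrix R N ℂ} {J : Matrix N ι ℂ} (hAJ : A * J = 0)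
    (hK : (A * Aᴴ).PosDef) (hG : (Jᴴ * J).PosDef)
    (hcard : Fintype.card N = Fintype.card R + Fintype.card ι) :
    Aᴴ * (A * Aᴴ)⁻¹ * A + J * (Jᴴ * J)⁻¹ * Jᴴ = 1 := by
  have hKu : IsUnit (A * Aᴴ).det := (Matrix.isUnit_iff_isUnit_det _).1 hK.isUnit
  have hGu : IsUnit (Jᴴ * J).det := (Matrix.isUnit_iff_isUnit_det _).1 hG.isUnit
  have hJA : Jᴴ * Aᴴ = 0 := by rw [← conjTranspose_mul, hAJ, conjTranspose_zero]
  set K := A * Aᴴ with hKdef
  set G := Jᴴ * J with hGdef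
  have hKh : K⁻¹ᴴ = K⁻¹ := by rw [conjTranspose_nonsing_inv, hK.1.eq]
  have hGh : G⁻¹ᴴ = G⁻¹ := by rw [conjTranspose_nonsing_inv, hG.1.eq]
  have hEE : Aᴴ * K⁻¹ * A * (Aᴴ * K⁻¹ * A) = Aᴴ * K⁻¹ * A := by
    have : Aᴴ * K⁻¹ * A * (Aᴴ * K⁻¹ * A) = Aᴴ * (K⁻¹ * (A * Aᴴ)) * (K⁻¹ * A) := by
      simp only [Matrix.mul_assoc]
    rw [this, ← hKdef, nonsing_inv_mul _ hKu, Matrix.mul_one, Matrix.mul_assoc]
  have hQQ : J * G⁻¹ * Jᴴ * (J * G⁻¹ * Jᴴ) = J * G⁻¹ * Jᴴ := by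
    have : J * G⁻¹ * Jᴴ * (J * G⁻¹ * Jᴴ) = J * (G⁻¹ * (Jᴴ * J)) * (G⁻¹ * Jᴴ) := by
      simp only [Matrix.mul_assoc]
    rw [this, ← hGdef, nonsing_inv_mul _ hGu, Matrix.mul_one, Matrix.mul_assoc]
  have hEQ : Aᴴ * K⁻¹ * A * (J * G⁻¹ * Jᴴ) = 0 := by
    have : Aᴴ * K⁻¹ * A * (J * G⁻¹ * Jᴴ) = Aᴴ * K⁻¹ * (A * J) * (G⁻¹ * Jᴴ) := by
      simp only [Matrix.mul_assoc]
    rw [this, hAJ, Matrix.mul_zero, Matrix.zero_mul]
  have hQE : J * G⁻¹ * Jᴴ * (Aᴴ * K⁻¹ * A) = 0 := by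
    have : J * G⁻¹ * Jᴴ * (Aᴴ * K⁻¹ * A) = J * G⁻¹ * (Jᴴ * Aᴴ) * (K⁻¹ * A) := by
      simp only [Matrix.mul_assoc]
    rw [this, hJA, Matrix.mul_zero, Matrix.zero_mul]
  set E := Aᴴ * K⁻¹ * A with hE
  set Q := J * G⁻¹ * Jᴴ with hQ
  have hEh : Eᴴ = E := by
    rw [hE, conjTranspose_mul, conjTranspose_mul, conjTranspose_conjTranspose, hKh,
      Matrix.mul_assoc]
  have hQh : Qᴴ = Q := by
    rw [hQ, conjTranspose_mul, conjTranspose_mul, conjTranspose_conjTranspose, hGh,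
      Matrix.mul_assoc]
  have hZZ : (1 - E - Q)ᴴ * (1 - E - Q) = 1 - E - Q := by
    rw [conjTranspose_sub, conjTranspose_sub, conjTranspose_one, hEh, hQh]
    simp only [Matrix.mul_sub, Matrix.sub_mul, Matrix.one_mul, Matrix.mul_one, hEE, hQQ, hEQ, hQE]
    abel
  have htE : E.trace = Fintype.card R := by
    rw [hE, trace_mul_comm, ← Matrix.mul_assoc, ← hKdef, mul_nonsing_inv _ hKu, trace_one]
  have htQ : Q.trace = Fintype.card ι := by
    rw [hQ, Matrix.mul_assoc, trace_mul_comm, Matrix.mul_assoc, ← hGdef,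
      nonsing_inv_mul _ hGu, trace_one]
  have ht : (1 - E - Q).trace = 0 := by
    rw [trace_sub, trace_sub, trace_one, htE, htQ, hcard]
    push_cast
    ring
  rw [← hZZ, trace_conjTranspose_mul_self_eq_zero_iff] at ht
  have : E + Q = 1 - (1 - E - Q) := by abel
  rw [this, ht, sub_zero]

/-- The polynomial `(1 - c A*A)^k` and the projection onto the kernel of `A`. -/
theorem poly_identity {A : Matrix R N ℂ} (hK : (A * Aᴴ).PosDef) (c : ℂ) (k : ℕ) :
    (1 - c • (Aᴴ * A)) ^ k =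
      1 - Aᴴ * (A * Aᴴ)⁻¹ * A + Aᴴ * (A * Aᴴ)⁻¹ * (1 - c • (A * Aᴴ)) ^ k * A := by
  have hKu : IsUnit (A * Aᴴ).det := (Matrix.isUnit_iff_isUnit_det _).1 hK.isUnit
  induction k with
  | zero => simp
  | succ k ih =>
    rw [pow_succ, ih, pow_succ]
    set K := A * Aᴴ with hKdef
    have h1 : Aᴴ * K⁻¹ * A * (Aᴴ * A) = Aᴴ * A := by
      have : Aᴴ * K⁻¹ * A * (Aᴴ * A) = Aᴴ * (K⁻¹ * (A * Aᴴ)) * A := by
        simp only [Matrix.mul_assoc]
      rw [this, ← hKdef, nonsing_inv_mul _ hKu, Matrix.mul_one]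
    have h2 : A * (Aᴴ * A) = K * A := by rw [hKdef, Matrix.mul_assoc]
    have h3 : ∀ Y : Matrix N R ℂ, Y * A * (1 - c • (Aᴴ * A)) = Y * (1 - c • K) * A := by
      intro Y
      rw [Matrix.mul_sub, Matrix.mul_smul, Matrix.mul_one, Matrix.mul_assoc Y A, h2,
        Matrix.mul_sub, Matrix.sub_mul, Matrix.mul_one, Matrix.mul_smul, Matrix.smul_mul,
        Matrix.mul_assoc Y K A]
    rw [Matrix.add_mul, h3, Matrix.sub_mul, Matrix.one_mul]
    have h4 : Aᴴ * K⁻¹ * A * (1 - c • (Aᴴ * A)) = Aᴴ * K⁻¹ * A - c • (Aᴴ * A) := by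
      rw [Matrix.mul_sub, Matrix.mul_one, Matrix.mul_smul, h1]
    rw [h4]
    simp only [Matrix.mul_assoc]
    abel

/-- The error term is positive semidefinite. -/
theorem error_posSemidef {A : Matrix R N ℂ} (hK : (A * Aᴴ).PosDef) (c : ℝ) (l : ℕ) :
    (Aᴴ * (A * Aᴴ)⁻¹ * (1 - (c : ℂ) • (A * Aᴴ)) ^ (2 * l) * A).PosSemidef := by
  set K := A * Aᴴ with hKdef
  have hKu : IsUnit K.det := (Matrix.isUnit_iff_isUnit_det _).1 hK.isUnit
  set M := 1 - (c : ℂ) • K with hM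
  have hMh : Mᴴ = M := by
    rw [hM, conjTranspose_sub, conjTranspose_one, conjTranspose_smul, hK.1.eq]
    simp
  have hcomm : Commute M K⁻¹ := by
    have h1 : Commute K K⁻¹ := by
      unfold Commute SemiconjBy
      rw [mul_nonsing_inv _ hKu, nonsing_inv_mul _ hKu]
    rw [hM]
    exact (Commute.one_left _).sub_left (h1.smul_left _)
  have h2 : K⁻¹ * M ^ (2 * l) = (M ^ l)ᴴ * K⁻¹ * M ^ l := by
    rw [conjTranspose_pow, hMh, two_mul, pow_add, ← Matrix.mul_assoc,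
      (hcomm.pow_left l).symm.eq]
  have h3 : Aᴴ * K⁻¹ * M ^ (2 * l) * A = (M ^ l * A)ᴴ * K⁻¹ * (M ^ l * A) := by
    rw [Matrix.mul_assoc Aᴴ, h2, conjTranspose_mul]
    simp only [Matrix.mul_assoc]
  rw [h3]
  exact hK.inv.posSemidef.conjTranspose_mul_mul_same _

theorem error_trace {A : Matrix R N ℂ} (hK : (A * Aᴴ).PosDef) (c : ℂ) (k : ℕ) :
    (Aᴴ * (A * Aᴴ)⁻¹ * (1 - c • (A * Aᴴ)) ^ k * A).trace =
      ((1 - c • (A * Aᴴ)) ^ k).trace := by
  have hKu : IsUnit (A * Aᴴ).det := (Matrix.isUnit_iff_isUnit_det _).1 hK.isUnit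
  have h1 : Aᴴ * (A * Aᴴ)⁻¹ * (1 - c • (A * Aᴴ)) ^ k * A =
      Aᴴ * ((A * Aᴴ)⁻¹ * (1 - c • (A * Aᴴ)) ^ k * A) := by
    simp only [Matrix.mul_assoc]
  rw [h1, trace_mul_comm, Matrix.mul_assoc, trace_mul_comm, ← Matrix.mul_assoc,
    mul_nonsing_inv _ hKu, Matrix.one_mul]

/-- The scalar inequality behind the count of small eigenvalues. -/
theorem scalar_ineq {t L q : ℝ} (ht : 0 < t) (hL : 0 ≤ L) {k : ℕ} (hk : 1 < q)
    (hq : q * (3 * L) ≤ k) (ht3 : t ≤ 3) :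
    (1 - 1 / 3 * t) ^ k ≤ Real.exp (-L) + (t - Real.log t) / Real.log q := by
  have hlog : 0 < Real.log q := Real.log_pos hk
  have h0 : 0 ≤ 1 - 1 / 3 * t := by linarith
  have htl : 1 ≤ t - Real.log t := by
    have := Real.log_le_sub_one_of_pos ht
    linarith
  have h1 : (1 - 1 / 3 * t) ^ k ≤ Real.exp (-(k * t / 3)) := by
    have h2 : 1 - 1 / 3 * t ≤ Real.exp (-(t / 3)) := by
      have := Real.add_one_le_exp (-(t / 3))
      linarith
    calc (1 - 1 / 3 * t) ^ k ≤ Real.exp (-(t / 3)) ^ k := pow_le_pow_left₀ h0 h2 k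
      _ = Real.exp (-(k * t / 3)) := by
        rw [← Real.exp_nat_mul]
        congr 1
        ring
  by_cases h : L ≤ k * t / 3
  · have h3 : Real.exp (-(k * t / 3)) ≤ Real.exp (-L) := Real.exp_le_exp.2 (by linarith)
    have h4 : 0 ≤ (t - Real.log t) / Real.log q := by positivity
    linarith
  · push Not at h
    have hq0 : 0 < q := by linarith
    have h3 : q * t < 1 := by
      by_contra h4
      push Not at h4
      have h5 : 3 * L ≤ k * t := by
        calc 3 * L = 1 * (3 * L) := by ring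
          _ ≤ (q * t) * (3 * L) := mul_le_mul_of_nonneg_right h4 (by linarith)
          _ = (q * (3 * L)) * t := by ring
          _ ≤ k * t := mul_le_mul_of_nonneg_right hq ht.le
      linarith
    have h4 : Real.log q ≤ -Real.log t := by
      rw [← Real.log_inv]
      refine Real.log_le_log hq0 ?_
      rw [le_inv_comm₀ hq0 ht, inv_eq_one_div, le_div_iff₀ hq0, mul_comm]
      exact h3.le
    have h5 : 1 ≤ (t - Real.log t) / Real.log q := by
      rw [le_div_iff₀ hlog]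
      linarith
    have h6 : (1 - 1 / 3 * t) ^ k ≤ 1 := pow_le_one₀ h0 (by linarith)
    have h7 := Real.exp_pos (-L)
    linarith

/-- Few eigenvalues of `K` are small. -/
theorem trace_bound {K : Matrix R R ℂ} (hK : K.PosDef) (hrow : Rows 3 K) {L q : ℝ}
    (hL : 0 ≤ L) {k : ℕ} (hq1 : 1 < q) (hq : q * (3 * L) ≤ k) :
    ((1 - ((1 / 3 : ℝ) : ℂ) • K) ^ k).trace.re ≤
      Fintype.card R * Real.exp (-L) + (K.trace.re - Real.log K.det.re) / Real.log q := by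
  rw [trace_one_sub_pow hK.1, Complex.ofReal_re, det_re_eq hK.1, trace_re_eq hK.1,
    Real.log_prod fun i _ => (hK.eigenvalues_pos i).ne', ← sum_sub_distrib, sum_div]
  have h1 : (Fintype.card R : ℝ) * Real.exp (-L) = ∑ _i : R, Real.exp (-L) := by simp
  rw [h1, ← sum_add_distrib]
  refine sum_le_sum fun i _ => ?_
  refine scalar_ineq (hK.eigenvalues_pos i) hL hq1 hq ?_
  have hv : (hK.1.eigenvectorBasis i : R → ℂ) ≠ 0 := by
    intro h0
    have := hK.1.eigenvectorBasis.orthonormal.ne_zero i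
    apply this
    ext j
    exact congrFun h0 j
  have h2 := eigenvalue_le hrow hv (t := hK.1.eigenvalues i) (by
    rw [hK.1.mulVec_eigenvectorBasis i]
    ext j
    simp)
  exact (le_abs_self _).trans h2

end Vale.Agent.P344.R2.H621
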