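import Mathlib

/-!
# Linear algebra for the normalized transform
-/

set_option linter.unusedSectionVars false

namespace Vale.Agent.P344.R2.H621

open Matrix Finset
open scoped ComplexOrder

variable {m n p : Type} [Fintype m] [Fintype n] [Fintype p]

/-- Row sums of absolute values are at most `a`. -/
def Rows (a : ℝ) (A : Matrix m n ℂ) : Prop := ∀ i, ∑ j, ‖A i j‖ ≤ a

/-- Column sums of absolute values are at most `a`. -/
def Cols (a : ℝ) (A : Matrix m n ℂ) : Prop := ∀ j, ∑ i, ‖A i j‖ ≤ a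

theorem Rows.mul {a b : ℝ} {A : Matrix m n ℂ} {B : Matrix n p ℂ} (hA : Rows a A)
    (hB : Rows b B) (hb : 0 ≤ b) : Rows (a * b) (A * B) := by
  intro i
  calc ∑ k, ‖(A * B) i k‖ ≤ ∑ k, ∑ j, ‖A i j‖ * ‖B j k‖ := by
        refine sum_le_sum fun k _ => ?_
        rw [mul_apply]
        refine (norm_sum_le _ _).trans (le_of_eq ?_)
        simp only [norm_mul]
    _ = ∑ j, ‖A i j‖ * ∑ k, ‖B j k‖ := by
        rw [sum_comm]
        simp only [mul_sum]
    _ ≤ ∑ j, ‖A i j‖ * b :=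
        sum_le_sum fun j _ => mul_le_mul_of_nonneg_left (hB j) (norm_nonneg _)
    _ = (∑ j, ‖A i j‖) * b := by rw [sum_mul]
    _ ≤ a * b := mul_le_mul_of_nonneg_right (hA i) hb

theorem Rows.one [DecidableEq n] : Rows 1 (1 : Matrix n n ℂ) := by
  intro i
  have : ∀ j, ‖(1 : Matrix n n ℂ) i j‖ = if i = j then 1 else 0 := by
    intro j
    rw [one_apply]
    split_ifs <;> simp
  simp [this]

theorem Rows.pow [DecidableEq n] {a : ℝ} (ha : 0 ≤ a) {A : Matrix n n ℂ} (hA : Rows a A)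
    (k : ℕ) : Rows (a ^ k) (A ^ k) := by
  induction k with
  | zero => simpa using Rows.one
  | succ k ih =>
    rw [pow_succ, pow_succ]
    exact ih.mul hA ha

theorem Rows.sub {a b : ℝ} {A B : Matrix m n ℂ} (hA : Rows a A) (hB : Rows b B) :
    Rows (a + b) (A - B) := by
  intro i
  calc ∑ j, ‖(A - B) i j‖ ≤ ∑ j, (‖A i j‖ + ‖B i j‖) :=
        sum_le_sum fun j _ => norm_sub_le _ _
    _ = ∑ j, ‖A i j‖ + ∑ j, ‖B i j‖ := sum_add_distrib
    _ ≤ a + b := add_le_add (hA i) (hB i)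

theorem Rows.smul {a : ℝ} {A : Matrix m n ℂ} (hA : Rows a A) (c : ℂ) :
    Rows (‖c‖ * a) (c • A) := by
  intro i
  simp only [Matrix.smul_apply, smul_eq_mul, norm_mul, ← mul_sum]
  exact mul_le_mul_of_nonneg_left (hA i) (norm_nonneg _)

theorem Rows.conjTranspose {a : ℝ} {A : Matrix m n ℂ} (hA : Cols a A) : Rows a Aᴴ := by
  intro i
  simpa using hA i

/-- A nonzero entry of an eigenvector bounds the eigenvalue. -/
theorem eigenvalue_le {a t : ℝ} {K : Matrix n n ℂ} (hK : Rows a K) {v : n → ℂ}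
    (hv : v ≠ 0) (h : K *ᵥ v = (t : ℂ) • v) : |t| ≤ a := by
  obtain ⟨j, hj⟩ := Function.ne_iff.1 hv
  have : Nonempty n := ⟨j⟩
  obtain ⟨i, hi⟩ := Finite.exists_max fun i => ‖v i‖
  have hpos : 0 < ‖v i‖ := (norm_pos_iff.2 hj).trans_le (hi j)
  have h1 : |t| * ‖v i‖ = ‖(K *ᵥ v) i‖ := by
    rw [h, Pi.smul_apply, smul_eq_mul, norm_mul, Complex.norm_real, Real.norm_eq_abs]
  have h2 : ‖(K *ᵥ v) i‖ ≤ a * ‖v i‖ := by
    calc ‖(K *ᵥ v) i‖ ≤ ∑ j, ‖K i j‖ * ‖v j‖ := by
          unfold mulVec dotProduct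
          refine (norm_sum_le _ _).trans (le_of_eq ?_)
          simp only [norm_mul]
      _ ≤ ∑ j, ‖K i j‖ * ‖v i‖ :=
          sum_le_sum fun j _ => mul_le_mul_of_nonneg_left (hi j) (norm_nonneg _)
      _ = (∑ j, ‖K i j‖) * ‖v i‖ := by rw [sum_mul]
      _ ≤ a * ‖v i‖ := mul_le_mul_of_nonneg_right (hK i) hpos.le
  rw [← h1] at h2
  exact le_of_mul_le_mul_right h2 hpos

/-- Unitary diagonalization. -/
theorem exists_diag [DecidableEq n] {K : Matrix n n ℂ} (hK : K.IsHermitian) :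
    ∃ V : Matrix n n ℂ, V * Vᴴ = 1 ∧ Vᴴ * V = 1 ∧
      K = V * diagonal (fun i => (hK.eigenvalues i : ℂ)) * Vᴴ := by
  refine ⟨hK.eigenvectorUnitary, ?_, ?_, ?_⟩
  · rw [← star_eq_conjTranspose]
    exact Unitary.coe_mul_star_self _
  · rw [← star_eq_conjTranspose]
    exact Unitary.coe_star_mul_self _
  · have := hK.spectral_theorem
    rw [Unitary.conjStarAlgAut_apply] at this
    rw [← star_eq_conjTranspose]
    exact this

theorem conj_diag_pow [DecidableEq n] {V : Matrix n n ℂ} (h2 : Vᴴ * V = 1) (h1 : V * Vᴴ = 1)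
    (d : n → ℂ) (k : ℕ) :
    (V * diagonal d * Vᴴ) ^ k = V * diagonal (fun i => d i ^ k) * Vᴴ := by
  induction k with
  | zero =>
    have : (diagonal fun i => d i ^ 0) = (1 : Matrix n n ℂ) := by simp
    rw [pow_zero, this, Matrix.mul_one, h1]
  | succ k ih =>
    rw [pow_succ, ih]
    have : V * diagonal (fun i => d i ^ k) * Vᴴ * (V * diagonal d * Vᴴ) =
        V * (diagonal (fun i => d i ^ k) * (Vᴴ * V) * diagonal d) * Vᴴ := by
      simp only [Matrix.mul_assoc]
    rw [this, h2, Matrix.mul_one, diagonal_mul_diagonal]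
    simp only [pow_succ]

theorem trace_conj_diag [DecidableEq n] {V : Matrix n n ℂ} (h2 : Vᴴ * V = 1) (d : n → ℂ) :
    (V * diagonal d * Vᴴ).trace = ∑ i, d i := by
  rw [Matrix.mul_assoc, trace_mul_comm, Matrix.mul_assoc, h2, Matrix.mul_one, trace_diagonal]

/-- Trace of a power of `1 - c K`. -/
theorem trace_one_sub_pow [DecidableEq n] {K : Matrix n n ℂ} (hK : K.IsHermitian) (c : ℝ)
    (k : ℕ) : ((1 - (c : ℂ) • K) ^ k).trace = ((∑ i, (1 - c * hK.eigenvalues i) ^ k : ℝ) : ℂ) := by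
  obtain ⟨V, h1, h2, h3⟩ := exists_diag hK
  have h4 : 1 - (c : ℂ) • K =
      V * diagonal (fun i => ((1 - c * hK.eigenvalues i : ℝ) : ℂ)) * Vᴴ := by
    have : (diagonal fun i => ((1 - c * hK.eigenvalues i : ℝ) : ℂ)) =
        (1 : Matrix n n ℂ) - (c : ℂ) • diagonal fun i => (hK.eigenvalues i : ℂ) := by
      ext i j
      by_cases hij : i = j
      · subst hij
        simp
      · simp [hij]
    rw [this, Matrix.mul_sub, Matrix.sub_mul, Matrix.mul_one, h1, Matrix.mul_smul,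
      Matrix.smul_mul, ← h3]
  rw [h4, conj_diag_pow h2 h1, trace_conj_diag h2]
  push_cast
  rfl

/-- The determinant of `1 + S` and the trace of the inverse of `a + b S`. -/
theorem trace_inv_add [DecidableEq n] {S : Matrix n n ℂ} (hS : S.PosSemidef) {a b : ℝ}
    (ha : 0 < a) (hb : 0 ≤ b) :
    (((a : ℂ) • (1 : Matrix n n ℂ) + (b : ℂ) • S)⁻¹).trace =
      ((∑ i, (a + b * hS.1.eigenvalues i)⁻¹ : ℝ) : ℂ) := by
  obtain ⟨V, h1, h2, h3⟩ := exists_diag hS.1
  have hnn : ∀ i, 0 ≤ hS.1.eigenvalues i := fun i => hS.eigenvalues_nonneg i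
  have h4 : (a : ℂ) • (1 : Matrix n n ℂ) + (b : ℂ) • S =
      V * diagonal (fun i => ((a + b * hS.1.eigenvalues i : ℝ) : ℂ)) * Vᴴ := by
    have : (diagonal fun i => ((a + b * hS.1.eigenvalues i : ℝ) : ℂ)) =
        (a : ℂ) • (1 : Matrix n n ℂ) + (b : ℂ) • diagonal fun i => (hS.1.eigenvalues i : ℂ) := by
      ext i j
      by_cases hij : i = j
      · subst hij
        simp
      · simp [hij]
    rw [this, Matrix.mul_add, Matrix.add_mul, Matrix.mul_smul, Matrix.smul_mul, Matrix.mul_one, h1,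
      Matrix.mul_smul, Matrix.smul_mul, ← h3]
  have h5 : ((a : ℂ) • (1 : Matrix n n ℂ) + (b : ℂ) • S)⁻¹ =
      V * diagonal (fun i => (((a + b * hS.1.eigenvalues i)⁻¹ : ℝ) : ℂ)) * Vᴴ := by
    apply inv_eq_right_inv
    rw [h4]
    have : V * diagonal (fun i => ((a + b * hS.1.eigenvalues i : ℝ) : ℂ)) * Vᴴ *
        (V * diagonal (fun i => (((a + b * hS.1.eigenvalues i)⁻¹ : ℝ) : ℂ)) * Vᴴ) =
        V * (diagonal (fun i => ((a + b * hS.1.eigenvalues i : ℝ) : ℂ)) * (Vᴴ * V) *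
          diagonal (fun i => (((a + b * hS.1.eigenvalues i)⁻¹ : ℝ) : ℂ))) * Vᴴ := by
      simp only [Matrix.mul_assoc]
    rw [this, h2, Matrix.mul_one, diagonal_mul_diagonal]
    have h6 : (diagonal fun i => ((a + b * hS.1.eigenvalues i : ℝ) : ℂ) *
        (((a + b * hS.1.eigenvalues i)⁻¹ : ℝ) : ℂ)) = (1 : Matrix n n ℂ) := by
      rw [← diagonal_one]
      congr 1
      funext i
      rw [← Complex.ofReal_mul, mul_inv_cancel₀, Complex.ofReal_one]
      have := hnn i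
      positivity
    rw [h6, Matrix.mul_one, h1]
  rw [h5, trace_conj_diag h2]
  push_cast
  rfl

theorem det_one_add [DecidableEq n] {S : Matrix n n ℂ} (hS : S.PosSemidef) :
    (1 + S).det = ((∏ i, (1 + hS.1.eigenvalues i) : ℝ) : ℂ) := by
  obtain ⟨V, h1, h2, h3⟩ := exists_diag hS.1
  have h4 : 1 + S = V * diagonal (fun i => ((1 + hS.1.eigenvalues i : ℝ) : ℂ)) * Vᴴ := by
    have : (diagonal fun i => ((1 + hS.1.eigenvalues i : ℝ) : ℂ)) =
        (1 : Matrix n n ℂ) + diagonal fun i => (hS.1.eigenvalues i : ℂ) := by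
      ext i j
      by_cases hij : i = j
      · subst hij
        simp
      · simp [hij]
    rw [this, Matrix.mul_add, Matrix.add_mul, Matrix.mul_one, h1, ← h3]
  rw [h4, det_mul, det_mul, mul_right_comm, ← det_mul, h1, det_one, one_mul, det_diagonal]
  push_cast
  rfl

theorem det_re_eq [DecidableEq n] {K : Matrix n n ℂ} (hK : K.IsHermitian) :
    K.det.re = ∏ i, hK.eigenvalues i := by
  rw [hK.det_eq_prod_eigenvalues]
  have : (∏ i, ((hK.eigenvalues i : ℝ) : ℂ)) = ((∏ i, hK.eigenvalues i : ℝ) : ℂ) := by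
    push_cast
    rfl
  exact (congrArg Complex.re this).trans (Complex.ofReal_re _)

theorem trace_re_eq [DecidableEq n] {K : Matrix n n ℂ} (hK : K.IsHermitian) :
    K.trace.re = ∑ i, hK.eigenvalues i := by
  rw [hK.trace_eq_sum_eigenvalues]
  have : (∑ i, ((hK.eigenvalues i : ℝ) : ℂ)) = ((∑ i, hK.eigenvalues i : ℝ) : ℂ) := by
    push_cast
    rfl
  exact (congrArg Complex.re this).trans (Complex.ofReal_re _)

/-- `log det K ≤ tr K - n` for positive definite `K`. -/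
theorem log_det_le [DecidableEq n] {K : Matrix n n ℂ} (hK : K.PosDef) :
    Real.log K.det.re ≤ K.trace.re - Fintype.card n := by
  rw [det_re_eq hK.1, trace_re_eq hK.1, Real.log_prod fun i _ => (hK.eigenvalues_pos i).ne']
  have : (Fintype.card n : ℝ) = ∑ _i : n, (1 : ℝ) := by simp
  rw [this, ← sum_sub_distrib]
  exact sum_le_sum fun i _ => Real.log_le_sub_one_of_pos (hK.eigenvalues_pos i)

theorem one_le_det_one_add [DecidableEq n] {S : Matrix n n ℂ} (hS : S.PosSemidef) :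
    1 ≤ (1 + S).det.re := by
  rw [det_one_add hS, Complex.ofReal_re]
  calc (1 : ℝ) = ∏ _i : n, (1 : ℝ) := by simp
    _ ≤ ∏ i, (1 + hS.1.eigenvalues i) := by
        refine prod_le_prod (fun _ _ => zero_le_one) fun i _ => ?_
        have := hS.eigenvalues_nonneg i
        linarith

end Vale.Agent.P344.R2.H621
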