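import Vale.Agent.P344.R2.H621.Key

/-!
# The main inequality for sparse systems
-/

set_option linter.unusedSectionVars false

namespace Vale.Agent.P344.R2.H621

open Matrix Finset
open scoped ComplexOrder

variable {R ι W : Type} [Fintype R] [Fintype ι] [Fintype W]
  [DecidableEq R] [DecidableEq ι] [DecidableEq W]

/-- The block of `X` with rows `y` and columns `x`. -/
def yx (X : Matrix (ι ⊕ (ι ⊕ W)) (ι ⊕ (ι ⊕ W)) ℂ) : Matrix ι ι ℂ :=
  X.submatrix (fun i => Sum.inr (Sum.inl i)) (fun j => Sum.inl j)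

theorem block_ineq {X : Matrix (ι ⊕ (ι ⊕ W)) (ι ⊕ (ι ⊕ W)) ℂ} (hX : X.PosSemidef)
    {U : Matrix ι ι ℂ} (hU : U * Uᴴ = 1) :
    -(Uᴴ * yx X).trace.re ≤ 1 / 2 * X.trace.re := by
  let V : Matrix (ι ⊕ (ι ⊕ W)) ι ℂ := fromRows 1 (fromRows U 0)
  have h0 : 0 ≤ (Vᴴ * X * V).trace.re := by
    have := (hX.conjTranspose_mul_mul_same V).trace_nonneg
    exact (Complex.le_def.1 this).1
  have h1 : (Vᴴ * X * V).trace = (X * (V * Vᴴ)).trace := by
    rw [Matrix.mul_assoc, trace_mul_comm, Matrix.mul_assoc]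
  have hxx : ∀ i j : ι, (V * Vᴴ) (Sum.inl i) (Sum.inl j) = if i = j then 1 else 0 := by
    intro i j
    simp [V, mul_apply, one_apply]
  have hxy : ∀ i j : ι, (V * Vᴴ) (Sum.inl i) (Sum.inr (Sum.inl j)) = star (U j i) := by
    intro i j
    simp [V, mul_apply, one_apply]
  have hyx : ∀ i j : ι, (V * Vᴴ) (Sum.inr (Sum.inl i)) (Sum.inl j) = U i j := by
    intro i j
    simp [V, mul_apply, one_apply]
  have hyy : ∀ i j : ι, (V * Vᴴ) (Sum.inr (Sum.inl i)) (Sum.inr (Sum.inl j)) =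
      if i = j then 1 else 0 := by
    intro i j
    have h2 : (V * Vᴴ) (Sum.inr (Sum.inl i)) (Sum.inr (Sum.inl j)) = (U * Uᴴ) i j := by
      simp [V, mul_apply]
    rw [h2, hU, one_apply]
  have hw1 : ∀ (w : W) (a : ι ⊕ (ι ⊕ W)), (V * Vᴴ) (Sum.inr (Sum.inr w)) a = 0 := by
    intro w a
    simp [V, mul_apply]
  have hw2 : ∀ (w : W) (a : ι ⊕ (ι ⊕ W)), (V * Vᴴ) a (Sum.inr (Sum.inr w)) = 0 := by
    intro w a
    simp [V, mul_apply]
  have h2 : (X * (V * Vᴴ)).trace = (∑ i, X (Sum.inl i) (Sum.inl i)) +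
      (∑ i, ∑ j, X (Sum.inl i) (Sum.inr (Sum.inl j)) * U j i) +
      (∑ i, ∑ j, X (Sum.inr (Sum.inl i)) (Sum.inl j) * star (U i j)) +
      ∑ i, X (Sum.inr (Sum.inl i)) (Sum.inr (Sum.inl i)) := by
    clear h0 h1
    generalize V * Vᴴ = Z at hxx hxy hyx hyy hw1 hw2 ⊢
    simp only [trace, diag_apply, mul_apply, Fintype.sum_sum_type, hxx, hxy, hyx, hyy, hw1, hw2,
      mul_zero, Finset.sum_const_zero, add_zero, mul_ite, mul_one, Finset.sum_ite_eq',
      Finset.mem_univ, if_true, Finset.sum_add_distrib]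
    ring
  have h3 : (∑ i, ∑ j, X (Sum.inr (Sum.inl i)) (Sum.inl j) * star (U i j)) =
      (Uᴴ * yx X).trace := by
    simp only [trace, diag_apply, mul_apply, conjTranspose_apply, yx, submatrix_apply]
    rw [sum_comm]
    refine sum_congr rfl fun i _ => sum_congr rfl fun j _ => ?_
    ring
  have h4 : (∑ i, ∑ j, X (Sum.inl i) (Sum.inr (Sum.inl j)) * U j i) =
      star (Uᴴ * yx X).trace := by
    rw [← h3, star_sum, sum_comm]
    refine sum_congr rfl fun i _ => ?_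
    rw [star_sum]
    refine sum_congr rfl fun j _ => ?_
    rw [star_mul', star_star]
    congr 1
    exact (hX.1.apply _ _).symm
  have h5 : X.trace = (∑ i, X (Sum.inl i) (Sum.inl i)) +
      ((∑ i, X (Sum.inr (Sum.inl i)) (Sum.inr (Sum.inl i))) +
        ∑ w, X (Sum.inr (Sum.inr w)) (Sum.inr (Sum.inr w))) := by
    simp only [trace, diag_apply, Fintype.sum_sum_type]
  have h6 : 0 ≤ (∑ w, X (Sum.inr (Sum.inr w)) (Sum.inr (Sum.inr w))).re := by
    rw [Complex.re_sum]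
    exact sum_nonneg fun w _ => (Complex.le_def.1 hX.diag_nonneg).1
  rw [h1, h2, h3, h4] at h0
  rw [h5]
  have h7 : (star (Uᴴ * yx X).trace).re = (Uᴴ * yx X).trace.re := by
    simp
  simp only [Complex.add_re] at h0 ⊢
  rw [h7] at h0
  linarith

/-- The main inequality. -/
theorem main_ineq {A : Matrix R (ι ⊕ (ι ⊕ W)) ℂ} {J : Matrix (ι ⊕ (ι ⊕ W)) ι ℂ}
    {U : Matrix ι ι ℂ} (hU : U * Uᴴ = 1) (hAJ : A * J = 0) (hK : (A * Aᴴ).PosDef)
    (hG : (Jᴴ * J).PosDef) (hcard : Fintype.card R = Fintype.card ι + Fintype.card W)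
    (hJx : ∀ i j, J (Sum.inl i) j = if i = j then 1 else 0)
    (hJy : ∀ i j, J (Sum.inr (Sum.inl i)) j = U i j)
    (hrow : Rows 3 A) (hcol : Cols 1 A) {δ : ℝ} (hδ : ∀ i j, ‖U i j‖ ≤ δ) {L q : ℝ}
    (hL : 0 ≤ L) {l : ℕ} (hq1 : 1 < q) (hq : q * (3 * L) ≤ (2 * l : ℕ)) :
    (Jᴴ * J)⁻¹.trace.re ≤ δ * Fintype.card ι * 2 ^ (2 * l) +
      1 / 2 * (Fintype.card R * Real.exp (-L) +
        ((A * Aᴴ).trace.re - Real.log (A * Aᴴ).det.re) / Real.log q) := by
  have hproj := proj_identity hAJ hK hG (by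
    simp only [Fintype.card_sum, hcard]
    ring)
  have hpoly := poly_identity (A := A) hK ((1 / 3 : ℝ) : ℂ) (2 * l)
  set H := (1 - ((1 / 3 : ℝ) : ℂ) • (Aᴴ * A)) ^ (2 * l) with hH
  set E := Aᴴ * (A * Aᴴ)⁻¹ * A with hE
  set X := Aᴴ * (A * Aᴴ)⁻¹ * (1 - ((1 / 3 : ℝ) : ℂ) • (A * Aᴴ)) ^ (2 * l) * A with hX
  set Q := J * (Jᴴ * J)⁻¹ * Jᴴ with hQ
  have hQHX : Q = H - X := by
    rw [hpoly, ← hproj]
    abel
  -- rows of `A A*` and `A* A`
  have hrowc : Rows 1 Aᴴ := Rows.conjTranspose hcol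
  have hcolc : ∀ i, ∑ j, ‖Aᴴ i j‖ ≤ 1 := hrowc
  have hrK : Rows 3 (A * Aᴴ) := by
    have := hrow.mul hrowc zero_le_one
    simpa using this
  have hrY : Rows 3 (Aᴴ * A) := by
    have := hrowc.mul hrow (by norm_num)
    simpa using this
  have hrH : Rows (2 ^ (2 * l)) H := by
    have h1 := (Rows.one (n := ι ⊕ (ι ⊕ W))).sub (hrY.smul ((1 / 3 : ℝ) : ℂ))
    have h2 : (1 : ℝ) + ‖((1 / 3 : ℝ) : ℂ)‖ * 3 = 2 := by
      rw [Complex.norm_real, Real.norm_of_nonneg (by norm_num)]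
      norm_num
    rw [h2] at h1
    exact h1.pow (by norm_num) _
  -- the three traces
  have hyx1 : yx Q = U * (Jᴴ * J)⁻¹ := by
    ext i j
    have h1 : (yx Q) i j = (J * (Jᴴ * J)⁻¹ * Jᴴ) (Sum.inr (Sum.inl i)) (Sum.inl j) := rfl
    rw [h1, mul_apply]
    have h2 : ∀ k, (J * (Jᴴ * J)⁻¹) (Sum.inr (Sum.inl i)) k = (U * (Jᴴ * J)⁻¹) i k := by
      intro k
      rw [mul_apply, mul_apply]
      exact sum_congr rfl fun a _ => by rw [hJy]
    simp only [h2, conjTranspose_apply, hJx]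
    simp
  have hUU : Uᴴ * U = 1 := mul_eq_one_comm.1 hU
  have ht1 : (Uᴴ * yx Q).trace = (Jᴴ * J)⁻¹.trace := by
    rw [hyx1, ← Matrix.mul_assoc, hUU, Matrix.one_mul]
  have ht2 : (Uᴴ * yx Q).trace = (Uᴴ * yx H).trace - (Uᴴ * yx X).trace := by
    have : yx Q = yx H - yx X := by
      rw [hQHX]
      rfl
    rw [this, Matrix.mul_sub, trace_sub]
  have hH1 : (Uᴴ * yx H).trace.re ≤ δ * Fintype.card ι * 2 ^ (2 * l) := by
    calc (Uᴴ * yx H).trace.re ≤ ‖(Uᴴ * yx H).trace‖ := Complex.re_le_norm _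
      _ ≤ ∑ j, ∑ i, ‖U i j‖ * ‖H (Sum.inr (Sum.inl i)) (Sum.inl j)‖ := by
          simp only [trace, diag_apply, mul_apply, conjTranspose_apply]
          refine (norm_sum_le _ _).trans (sum_le_sum fun j _ => ?_)
          refine (norm_sum_le _ _).trans (le_of_eq ?_)
          simp only [norm_mul, norm_star]
          rfl
      _ = ∑ i, ∑ j, ‖U i j‖ * ‖H (Sum.inr (Sum.inl i)) (Sum.inl j)‖ := sum_comm
      _ ≤ ∑ _i : ι, δ * 2 ^ (2 * l) := by
          refine sum_le_sum fun i _ => ?_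
          have hδ0 : 0 ≤ δ := (norm_nonneg _).trans (hδ i i)
          calc ∑ j, ‖U i j‖ * ‖H (Sum.inr (Sum.inl i)) (Sum.inl j)‖
              ≤ ∑ j, δ * ‖H (Sum.inr (Sum.inl i)) (Sum.inl j)‖ :=
                sum_le_sum fun j _ => mul_le_mul_of_nonneg_right (hδ i j) (norm_nonneg _)
            _ = δ * ∑ j, ‖H (Sum.inr (Sum.inl i)) (Sum.inl j)‖ := by rw [mul_sum]
            _ ≤ δ * 2 ^ (2 * l) := by
                refine mul_le_mul_of_nonneg_left ?_ hδ0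
                refine le_trans ?_ (hrH (Sum.inr (Sum.inl i)))
                rw [Fintype.sum_sum_type]
                have : 0 ≤ ∑ b, ‖H (Sum.inr (Sum.inl i)) (Sum.inr b)‖ :=
                  sum_nonneg fun _ _ => norm_nonneg _
                linarith
      _ = δ * Fintype.card ι * 2 ^ (2 * l) := by
          simp only [sum_const, card_univ, nsmul_eq_mul]
          ring
  have hX1 := block_ineq (error_posSemidef hK (1 / 3 : ℝ) l) hU
  have hX2 : X.trace.re ≤ Fintype.card R * Real.exp (-L) +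
      ((A * Aᴴ).trace.re - Real.log (A * Aᴴ).det.re) / Real.log q := by
    rw [hX, error_trace hK]
    exact trace_bound hK hrK hL hq1 hq
  rw [ht1] at ht2
  rw [ht2, Complex.sub_re]
  linarith

end Vale.Agent.P344.R2.H621
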