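import Vale.Agent.P344.R2.H621.Norm

/-!
# Rescaling circuits
-/

namespace Vale.Agent.P344.R2.H621

open Filter Vale.Agent.P344

theorem scale_outputs {X κ : Type} {Λ : Set ℂ} {S V : Set (ℕ × (X → ℂ))} {s : ℕ}
    (hV : Steps Λ S s V) (c : κ → ℂ) (hc : ∀ j, c j ∈ Λ) (u : κ → X → ℂ)
    (hu : ∀ j, ∃ d, (d, u j) ∈ V) (t : Finset κ) :
    ∃ W, Steps Λ S (s + t.card) W ∧ V ⊆ W ∧ ∀ j ∈ t, ∃ d, (d, c j • u j) ∈ W := by
  classical
  induction t using Finset.induction_on with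
  | empty => exact ⟨V, by simpa using hV, subset_rfl, by simp⟩
  | insert a t ha ih =>
    obtain ⟨W, hW, hVW, ht⟩ := ih
    obtain ⟨d, hd⟩ := hu a
    refine ⟨insert (d + 1, c a • u a) W, ?_, hVW.trans (Set.subset_insert _ _), ?_⟩
    · rw [Finset.card_insert_of_notMem ha, ← add_assoc]
      exact hW.smul (c a) (hVW hd) (hc a)
    · intro j hj
      rcases Finset.mem_insert.1 hj with rfl | hj
      · exact ⟨d + 1, Set.mem_insert _ _⟩
      · obtain ⟨e, he⟩ := ht j hj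
        exact ⟨e, Set.mem_insert_of_mem _ he⟩

theorem rescale {X : Type} {S V : Set (ℕ × (X → ℂ))} {s : ℕ} (hV : Steps Set.univ S s V) :
    ∃ s' ≤ 2 * s, ∃ W, Steps (disc 1) S s' W ∧
      ∀ d u, (d, u) ∈ V → ∃ σ : ℝ, 0 < σ ∧ ∃ e, (e, (σ : ℂ) • u) ∈ W := by
  induction hV with
  | zero =>
    exact ⟨0, le_rfl, S, Steps.zero, fun d u h => ⟨1, one_pos, d, by simpa using h⟩⟩
  | @add s V d e u v hV hu hv ih =>
    obtain ⟨s', hs', W, hW, h⟩ := ih
    obtain ⟨σ, hσ, a, ha⟩ := h _ _ hu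
    obtain ⟨τ, hτ, b, hb⟩ := h _ _ hv
    rcases le_total σ τ with hle | hle
    · have hq : ((σ / τ : ℝ) : ℂ) ∈ disc 1 := by
        unfold disc
        rw [Set.mem_ofPred_eq, Complex.norm_real, Real.norm_of_nonneg (by positivity)]
        exact (div_le_one hτ).2 hle
      have h1 := hW.smul _ hb hq
      have h2 := h1.add (Set.mem_insert_of_mem _ ha) (Set.mem_insert _ _)
      refine ⟨s' + 1 + 1, by omega, _, h2, ?_⟩
      intro d' u' hu'
      rcases hu' with hu' | hu'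
      · obtain ⟨_, rfl⟩ := Prod.mk.inj hu'
        refine ⟨σ, hσ, max a (b + 1) + 1, ?_⟩
        have h3 : (σ : ℂ) • (u + v) = (σ : ℂ) • u + ((σ / τ : ℝ) : ℂ) • ((τ : ℂ) • v) := by
          have : (τ : ℂ) ≠ 0 := by exact_mod_cast hτ.ne'
          rw [smul_smul, smul_add]
          congr 2
          push_cast
          field_simp
        rw [h3]
        exact Set.mem_insert _ _
      · obtain ⟨ρ, hρ, e', he'⟩ := h _ _ hu'
        exact ⟨ρ, hρ, e', Set.mem_insert_of_mem _ (Set.mem_insert_of_mem _ he')⟩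
    · have hq : ((τ / σ : ℝ) : ℂ) ∈ disc 1 := by
        unfold disc
        rw [Set.mem_ofPred_eq, Complex.norm_real, Real.norm_of_nonneg (by positivity)]
        exact (div_le_one hσ).2 hle
      have h1 := hW.smul _ ha hq
      have h2 := h1.add (Set.mem_insert _ _) (Set.mem_insert_of_mem _ hb)
      refine ⟨s' + 1 + 1, by omega, _, h2, ?_⟩
      intro d' u' hu'
      rcases hu' with hu' | hu'
      · obtain ⟨_, rfl⟩ := Prod.mk.inj hu'
        refine ⟨τ, hτ, max (a + 1) b + 1, ?_⟩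
        have h3 : (τ : ℂ) • (u + v) = ((τ / σ : ℝ) : ℂ) • ((σ : ℂ) • u) + (τ : ℂ) • v := by
          have : (σ : ℂ) ≠ 0 := by exact_mod_cast hσ.ne'
          rw [smul_smul, smul_add]
          congr 2
          push_cast
          field_simp
        rw [h3]
        exact Set.mem_insert _ _
      · obtain ⟨ρ, hρ, e', he'⟩ := h _ _ hu'
        exact ⟨ρ, hρ, e', Set.mem_insert_of_mem _ (Set.mem_insert_of_mem _ he')⟩
  | @sub s V d e u v hV hu hv ih =>
    obtain ⟨s', hs', W, hW, h⟩ := ih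
    obtain ⟨σ, hσ, a, ha⟩ := h _ _ hu
    obtain ⟨τ, hτ, b, hb⟩ := h _ _ hv
    rcases le_total σ τ with hle | hle
    · have hq : ((σ / τ : ℝ) : ℂ) ∈ disc 1 := by
        unfold disc
        rw [Set.mem_ofPred_eq, Complex.norm_real, Real.norm_of_nonneg (by positivity)]
        exact (div_le_one hτ).2 hle
      have h1 := hW.smul _ hb hq
      have h2 := h1.sub (Set.mem_insert_of_mem _ ha) (Set.mem_insert _ _)
      refine ⟨s' + 1 + 1, by omega, _, h2, ?_⟩
      intro d' u' hu'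
      rcases hu' with hu' | hu'
      · obtain ⟨_, rfl⟩ := Prod.mk.inj hu'
        refine ⟨σ, hσ, max a (b + 1) + 1, ?_⟩
        have h3 : (σ : ℂ) • (u - v) = (σ : ℂ) • u - ((σ / τ : ℝ) : ℂ) • ((τ : ℂ) • v) := by
          have : (τ : ℂ) ≠ 0 := by exact_mod_cast hτ.ne'
          rw [smul_smul, smul_sub]
          congr 2
          push_cast
          field_simp
        rw [h3]
        exact Set.mem_insert _ _
      · obtain ⟨ρ, hρ, e', he'⟩ := h _ _ hu'
        exact ⟨ρ, hρ, e', Set.mem_insert_of_mem _ (Set.mem_insert_of_mem _ he')⟩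
    · have hq : ((τ / σ : ℝ) : ℂ) ∈ disc 1 := by
        unfold disc
        rw [Set.mem_ofPred_eq, Complex.norm_real, Real.norm_of_nonneg (by positivity)]
        exact (div_le_one hσ).2 hle
      have h1 := hW.smul _ ha hq
      have h2 := h1.sub (Set.mem_insert _ _) (Set.mem_insert_of_mem _ hb)
      refine ⟨s' + 1 + 1, by omega, _, h2, ?_⟩
      intro d' u' hu'
      rcases hu' with hu' | hu'
      · obtain ⟨_, rfl⟩ := Prod.mk.inj hu'
        refine ⟨τ, hτ, max (a + 1) b + 1, ?_⟩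
        have h3 : (τ : ℂ) • (u - v) = ((τ / σ : ℝ) : ℂ) • ((σ : ℂ) • u) - (τ : ℂ) • v := by
          have : (σ : ℂ) ≠ 0 := by exact_mod_cast hσ.ne'
          rw [smul_smul, smul_sub]
          congr 2
          push_cast
          field_simp
        rw [h3]
        exact Set.mem_insert _ _
      · obtain ⟨ρ, hρ, e', he'⟩ := h _ _ hu'
        exact ⟨ρ, hρ, e', Set.mem_insert_of_mem _ (Set.mem_insert_of_mem _ he')⟩
  | @smul s V d u c hV hu _ ih =>
    obtain ⟨s', hs', W, hW, h⟩ := ih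
    obtain ⟨σ, hσ, a, ha⟩ := h _ _ hu
    rcases le_total ‖c‖ 1 with hc | hc
    · have h1 := hW.smul c ha hc
      refine ⟨s' + 1, by omega, _, h1, ?_⟩
      intro d' u' hu'
      rcases hu' with hu' | hu'
      · obtain ⟨_, rfl⟩ := Prod.mk.inj hu'
        refine ⟨σ, hσ, a + 1, ?_⟩
        rw [smul_comm]
        exact Set.mem_insert _ _
      · obtain ⟨ρ, hρ, e', he'⟩ := h _ _ hu'
        exact ⟨ρ, hρ, e', Set.mem_insert_of_mem _ he'⟩
    · have hc0 : 0 < ‖c‖ := lt_of_lt_of_le one_pos hc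
      have hq : c / (‖c‖ : ℂ) ∈ disc 1 := by
        unfold disc
        rw [Set.mem_ofPred_eq, norm_div, Complex.norm_real, norm_norm, div_self hc0.ne']
      have h1 := hW.smul _ ha hq
      refine ⟨s' + 1, by omega, _, h1, ?_⟩
      intro d' u' hu'
      rcases hu' with hu' | hu'
      · obtain ⟨_, rfl⟩ := Prod.mk.inj hu'
        refine ⟨σ / ‖c‖, by positivity, a + 1, ?_⟩
        have h3 : ((σ / ‖c‖ : ℝ) : ℂ) • (c • u) = (c / (‖c‖ : ℂ)) • ((σ : ℂ) • u) := by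
          rw [smul_smul, smul_smul]
          congr 1
          push_cast
          ring
        rw [h3]
        exact Set.mem_insert _ _
      · obtain ⟨ρ, hρ, e', he'⟩ := h _ _ hu'
        exact ⟨ρ, hρ, e', Set.mem_insert_of_mem _ he'⟩

theorem L_le_scaled {n s : ℕ} {ρ : ℝ} (hρ : 0 < ρ) (h : Computes (disc 1) ⊤ (sdft ρ n) s) :
    L n ≤ s + n := by
  obtain ⟨V, hV, hout⟩ := h
  obtain ⟨W, hW, _, hW2⟩ := scale_outputs (Λ := Set.univ) (hV.mono_coeff (Set.subset_univ _))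
    (fun _ : Fin n => ((ρ : ℂ))⁻¹) (fun _ => Set.mem_univ _) (sdft ρ n)
    (fun j => by obtain ⟨d, _, hd⟩ := hout j; exact ⟨d, hd⟩) Finset.univ
  rw [Finset.card_univ, Fintype.card_fin] at hW
  refine L_le (Λ := Set.univ) (D := ⊤) ⟨W, hW, fun j => ?_⟩
  obtain ⟨d, hd⟩ := hW2 j (Finset.mem_univ j)
  refine ⟨d, le_top, ?_⟩
  have hρ0 : (ρ : ℂ) ≠ 0 := by exact_mod_cast hρ.ne'
  have h3 : (ρ : ℂ)⁻¹ • sdft ρ n j = dft n j := by
    funext x
    simp only [Pi.smul_apply, smul_eq_mul, sdft]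
    rw [← mul_assoc, inv_mul_cancel₀ hρ0, one_mul]
  rw [← h3]
  exact hd

theorem exists_scaled (n : ℕ) : ∃ ρ : ℝ, 0 < ρ ∧ ∃ s ≤ 2 * L n + n,
    Computes (disc 1) ⊤ (sdft ρ n) s := by
  obtain ⟨V, hV, hout⟩ := L_spec n
  obtain ⟨s', hs', W, hW, h⟩ := rescale hV
  have h1 : ∀ j : Fin n, ∃ σ : ℝ, 0 < σ ∧ ∃ e, (e, (σ : ℂ) • dft n j) ∈ W := fun j => by
    obtain ⟨d, _, hd⟩ := hout j
    exact h _ _ hd
  choose σ hσ h2 using h1
  obtain ⟨ρ, hρ, hρσ⟩ : ∃ ρ : ℝ, 0 < ρ ∧ ∀ j, ρ ≤ σ j := by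
    rcases isEmpty_or_nonempty (Fin n) with he | he
    · exact ⟨1, one_pos, fun j => he.elim j⟩
    · obtain ⟨j₀, hj₀⟩ := Finite.exists_min σ
      exact ⟨σ j₀, hσ j₀, hj₀⟩
  obtain ⟨W', hW', _, hout'⟩ := scale_outputs hW (fun j => ((ρ / σ j : ℝ) : ℂ))
    (fun j => by
      unfold disc
      rw [Set.mem_ofPred_eq, Complex.norm_real,
        Real.norm_of_nonneg (div_nonneg hρ.le (hσ j).le)]
      exact (div_le_one (hσ j)).2 (hρσ j))
    (fun j => (σ j : ℂ) • dft n j) h2 Finset.univ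
  rw [Finset.card_univ, Fintype.card_fin] at hW'
  refine ⟨ρ, hρ, s' + n, by omega, W', hW', fun j => ?_⟩
  obtain ⟨d, hd⟩ := hout' j (Finset.mem_univ j)
  refine ⟨d, le_top, ?_⟩
  have h3 : ((ρ / σ j : ℝ) : ℂ) • ((σ j : ℂ) • dft n j) = sdft ρ n j := by
    have : (σ j : ℂ) ≠ 0 := by exact_mod_cast (hσ j).ne'
    rw [smul_smul]
    funext x
    simp only [Pi.smul_apply, smul_eq_mul, sdft]
    congr 1
    push_cast
    field_simp
  rw [← h3]
  exact hd

end Vale.Agent.P344.R2.H621
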