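import Vale.Agent.P344.R2.H621.Asym
import Vale.Agent.P344.H952.CFinal

/-!
# The normalized transform
-/

set_option linter.unusedSectionVars false

namespace Vale.Agent.P344.R2.H621

open Matrix Filter Vale.Agent.P344

/-- The bound for circuits. -/
theorem circuit_bound {γ : ℝ} (hγ : 0 < γ) : ∀ᶠ n : ℕ in atTop,
    ∀ U : Matrix (Fin n) (Fin n) ℂ, U * Uᴴ = 1 → (∀ i j, ‖U i j‖ ≤ (n : ℝ) ^ (-γ)) →
      ∀ (C : Circuit (Fin n) (Fin n)) (f : C.G → Fin n → ℂ) (ρ : ℝ), C.IsForms f → 0 < ρ →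
        (∀ j i, C.cell f (C.out j) i = ρ * U j i) →
        ∀ t : Option (Fin n) ⊕ C.G → ℝ, (∀ k, 0 < t k) → (∀ k, t (.inl k) = 1) →
          n * Real.log (Real.log n) / 120 ≤ Fintype.card C.G + ∑ g, gain C t g +
            ∑ j, max 0 (Real.log (t (C.out j) / ρ)) := by
  filter_upwards [eventually_num hγ] with n hnum U hU hδ C f ρ hf hρ hout t ht ht1
  obtain ⟨hn, hx, hsmall, l, L, q, hL, hq1, hq, hl, hlq, hexp⟩ := hnum
  have hn0 : (0 : ℝ) < n := by exact_mod_cast (by omega : 0 < n)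
  have h := circuit_ineq C hf hU hδ hρ hout ht ht1 (by rw [Fintype.card_fin]; exact hn) hL hq1 hq
  rw [Fintype.card_fin] at h
  have hgain : 0 ≤ ∑ g, gain C t g := Finset.sum_nonneg fun g _ => gain_nonneg C t g
  have hout0 : 0 ≤ ∑ j, max 0 (Real.log (t (C.out j) / ρ)) :=
    Finset.sum_nonneg fun j _ => le_max_left _ _
  have hG0 : (0 : ℝ) ≤ Fintype.card C.G := Nat.cast_nonneg _
  have h1 : (n : ℝ) ^ (-γ) * n * 2 ^ (2 * l) ≤ n / 200 := by
    calc (n : ℝ) ^ (-γ) * n * 2 ^ (2 * l) ≤ (n : ℝ) ^ (-γ) * n * (n : ℝ) ^ (γ / 2) :=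
          mul_le_mul_of_nonneg_left hl (by positivity)
      _ = n * ((n : ℝ) ^ (-γ) * (n : ℝ) ^ (γ / 2)) := by ring
      _ = n * (n : ℝ) ^ (-(γ / 2)) := by
          rw [← Real.rpow_add hn0]
          congr 2
          ring
      _ ≤ n * (1 / 200) := mul_le_mul_of_nonneg_left hsmall hn0.le
      _ = n / 200 := by ring
  refine num_final (s := Fintype.card C.G) hn0 hx ?_ ?_ h1 hexp hlq ?_
  · linarith
  · linarith
  · refine h.trans (le_of_eq ?_)
    ring

/-- From straight-line programs to circuits. -/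
theorem exists_circuit {ι κ : Type} [Fintype ι] [DecidableEq ι] {Λ : Set ℂ} {s : ℕ} {D : ℕ∞}
    {A : Matrix κ ι ℂ} {F : κ → (ι → ℂ) → ℂ} (hF : ∀ j, F j = form (A j))
    (h : Computes Λ D F s) : ∃ (C : Circuit ι κ) (f : C.G → ι → ℂ), C.IsForms f ∧
      Fintype.card C.G ≤ s ∧ (∀ g z p, C.gate g = .smul z p → z ∈ Λ) ∧
      ∀ j i, C.cell f (C.out j) i = A j i := by
  obtain ⟨V, hV, hout⟩ := h
  obtain ⟨C, f, hf, hcard, _, hcoef, hVV⟩ := hV.holds
  have key : ∀ j, ∃ k, C.cell f k = A j := by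
    intro j
    obtain ⟨d, _, hd⟩ := hout j
    obtain ⟨k, hk, _⟩ := hVV _ hd
    refine ⟨k, ?_⟩
    simp only at hk
    rw [hF j] at hk
    exact (form_injective hk).symm
  choose o ho using key
  let C' : Circuit ι κ :=
    { G := C.G
      fin := C.fin
      dec := C.dec
      gate := C.gate
      depth := C.depth
      depth_pos := C.depth_pos
      depth_lt := C.depth_lt
      out := o }
  have hcell : C'.cell f = C.cell f := by
    funext k
    rcases k with (_ | k) | k <;> rfl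
  refine ⟨C', f, ?_, hcard, hcoef, ?_⟩
  · intro g
    rw [hcell]
    exact hf g
  · intro j i
    rw [hcell]
    exact congrFun (ho j) i

/-- The unitary transform. -/
noncomputable def UM (n : ℕ) : Matrix (Fin n) (Fin n) ℂ :=
  ((Real.sqrt n : ℝ) : ℂ)⁻¹ • DM n

theorem DM_norm (n : ℕ) (i j : Fin n) : ‖DM n i j‖ = 1 := zeta_pow_norm _ _

theorem DM_mul_conj {n : ℕ} (hn : n ≠ 0) : DM n * (DM n)ᴴ = (n : ℂ) • 1 := by
  ext i j
  rw [mul_apply, Matrix.smul_apply, one_apply, smul_eq_mul]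
  have h1 : ∀ k : Fin n, DM n i k * (DM n)ᴴ k j = zeta n ^ (k.val * (i.val + (n - j.val))) := by
    intro k
    have h2 : (DM n)ᴴ k j = (starRingEnd ℂ) (zeta n ^ (j.val * k.val)) := rfl
    have h3 : DM n i k = zeta n ^ (i.val * k.val) := rfl
    rw [h2, h3, mul_comm j.val k.val, conj_zeta_pow hn k.val j.2.le, ← pow_add]
    congr 1
    ring
  simp only [h1]
  rw [Fin.sum_univ_eq_sum_range (fun k => zeta n ^ (k * (i.val + (n - j.val)))) n, char_sum hn]
  by_cases hij : i = j
  · subst hij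
    rw [if_pos ⟨1, by omega⟩, if_pos rfl, mul_one]
  · rw [if_neg, if_neg hij, mul_zero]
    rintro ⟨r, hr⟩
    have hi := i.2
    have hj := j.2
    apply hij
    apply Fin.ext
    have hr2 : r < 2 := by
      by_contra h
      have : n * 2 ≤ n * r := Nat.mul_le_mul_left _ (by omega)
      omega
    interval_cases r <;> omega

theorem UM_unitary {n : ℕ} (hn : n ≠ 0) : UM n * (UM n)ᴴ = 1 := by
  have hn0 : (0 : ℝ) < n := by exact_mod_cast Nat.pos_of_ne_zero hn
  unfold UM
  rw [conjTranspose_smul, Matrix.smul_mul, Matrix.mul_smul, DM_mul_conj hn, smul_smul, smul_smul]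
  have h1 : ((Real.sqrt n : ℝ) : ℂ)⁻¹ * star ((Real.sqrt n : ℝ) : ℂ)⁻¹ * (n : ℂ) = 1 := by
    have h2 : star ((Real.sqrt n : ℝ) : ℂ)⁻¹ = ((Real.sqrt n : ℝ) : ℂ)⁻¹ := by
      rw [← Complex.ofReal_inv, Complex.star_def, Complex.conj_ofReal]
    have h3 : (n : ℂ) = ((Real.sqrt n : ℝ) : ℂ) * ((Real.sqrt n : ℝ) : ℂ) := by
      rw [← Complex.ofReal_mul, Real.mul_self_sqrt hn0.le]
      simp
    have h4 : ((Real.sqrt n : ℝ) : ℂ) ≠ 0 := by
      have := Real.sqrt_pos.2 hn0
      exact_mod_cast this.ne'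
    rw [h2, h3]
    field_simp
  rw [h1, one_smul]

theorem UM_norm {n : ℕ} (hn : n ≠ 0) (i j : Fin n) : ‖UM n i j‖ ≤ (n : ℝ) ^ (-(1 / 2) : ℝ) := by
  have hn0 : (0 : ℝ) < n := by exact_mod_cast Nat.pos_of_ne_zero hn
  unfold UM
  rw [Matrix.smul_apply, smul_eq_mul, norm_mul, DM_norm, mul_one, norm_inv, Complex.norm_real,
    Real.norm_of_nonneg (Real.sqrt_nonneg _), Real.rpow_neg hn0.le, ← Real.sqrt_eq_rpow]

/-- Bounded coefficients. -/
theorem bounded_bound {K : ℝ} (hK : 1 ≤ K) : ∀ᶠ n : ℕ in atTop, ∀ ρ : ℝ, 0 < ρ → ∀ s : ℕ,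
    Computes (disc K) ⊤ (sdft ρ n) s →
      n * Real.log (Real.log n) / 120 ≤ (1 + Real.log K) * s +
        n * max 0 (Real.log (1 / (ρ * Real.sqrt n))) := by
  filter_upwards [circuit_bound (γ := 1 / 2) (by norm_num), eventually_ge_atTop 1] with n hn hn1
    ρ hρ s hs
  have hne : n ≠ 0 := by omega
  have hn0 : (0 : ℝ) < n := by exact_mod_cast (by omega : 0 < n)
  have hsq : 0 < Real.sqrt n := Real.sqrt_pos.2 hn0
  have hF : ∀ j, sdft ρ n j = form ((fun j i => (ρ : ℂ) * DM n j i : Matrix (Fin n) (Fin n) ℂ) j) := by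
    intro j
    funext x
    simp only [sdft, form, dft_def, Finset.mul_sum, mul_assoc]
    rfl
  obtain ⟨C, f, hf, hcard, hcoef, hout⟩ := exists_circuit hF hs
  have h1 := hn (UM n) (UM_unitary hne) (UM_norm hne) C f (ρ * Real.sqrt n) hf (by positivity)
    (fun j i => by
      rw [hout j i]
      unfold UM
      rw [Matrix.smul_apply, smul_eq_mul]
      have h4 : ((Real.sqrt n : ℝ) : ℂ) ≠ 0 := by exact_mod_cast hsq.ne'
      push_cast
      field_simp)
    (fun _ => 1) (fun _ => one_pos) (fun _ => rfl)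
  refine h1.trans ?_
  have hlogK : 0 ≤ Real.log K := Real.log_nonneg hK
  have hgain : ∑ g, gain C (fun _ => 1) g ≤ Real.log K * s := by
    calc ∑ g, gain C (fun _ => 1) g ≤ ∑ _g : C.G, Real.log K := by
          refine Finset.sum_le_sum fun g _ => ?_
          unfold gain
          refine max_le hlogK ?_
          cases hg : C.gate g with
          | add p q => simpa [reach] using hlogK
          | sub p q => simpa [reach] using hlogK
          | smul z p =>
            simp only [reach, mul_one, div_one]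
            rcases eq_or_lt_of_le (norm_nonneg z) with h0 | h0
            · rw [← h0, Real.log_zero]
              exact hlogK
            · exact Real.log_le_log h0 (hcoef g z p hg)
      _ = Fintype.card C.G * Real.log K := by simp
      _ ≤ Real.log K * s := by
          rw [mul_comm]
          exact mul_le_mul_of_nonneg_left (by exact_mod_cast hcard) hlogK
  have hcard' : (Fintype.card C.G : ℝ) ≤ s := by exact_mod_cast hcard
  have hlast : ∑ _j : Fin n, max 0 (Real.log (1 / (ρ * Real.sqrt n))) =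
      n * max 0 (Real.log (1 / (ρ * Real.sqrt n))) := by
    simp
  linarith

end Vale.Agent.P344.R2.H621
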