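import Vale.Agent.P344.R2.H621.Canc

/-!
# Consequences
-/

namespace Vale.Agent.P344.R2.H621

open Matrix Filter Vale.Agent.P344

theorem canc_dft : ∀ᶠ n : ℕ in atTop, ∀ (C : Circuit (Fin n) (Fin n)) (f : C.G → Fin n → ℂ),
    C.IsForms f → (∀ j k : Fin n, C.cell f (C.out j) k =
      Complex.exp (2 * Real.pi * Complex.I / n) ^ ((j : ℕ) * (k : ℕ))) →
        n * Real.log (Real.log n) / 120 ≤ Fintype.card C.G + ∑ g, canc C f g := by
  filter_upwards [canc_bound (γ := 1 / 2) (by norm_num), eventually_ge_atTop 1] with n hn hn1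
    C f hf hout
  have hne : n ≠ 0 := by omega
  have hn0 : (0 : ℝ) < n := by exact_mod_cast (by omega : 0 < n)
  have hsq : 0 < Real.sqrt n := Real.sqrt_pos.2 hn0
  refine hn (UM n) (UM_unitary hne) (UM_norm hne) C f (Real.sqrt n) hf hsq fun j i => ?_
  rw [hout j i]
  have h4 : ((Real.sqrt n : ℝ) : ℂ) ≠ 0 := by exact_mod_cast hsq.ne'
  unfold UM
  rw [Matrix.smul_apply, smul_eq_mul, mul_inv_cancel_left₀ h4]
  rfl

theorem normalized_bound {K : ℝ} (hK : 1 ≤ K) : ∀ᶠ n : ℕ in atTop, ∀ s : ℕ,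
    Computes (disc K) ⊤ (fun (j : Fin n) x => ((Real.sqrt n : ℝ) : ℂ)⁻¹ * dft n j x) s →
      n * Real.log (Real.log n) / (120 * (1 + Real.log K)) ≤ s := by
  filter_upwards [bounded_bound hK, eventually_ge_atTop 1] with n hn hn1 s hs
  have hn0 : (0 : ℝ) < n := by exact_mod_cast (by omega : 0 < n)
  have hsq : 0 < Real.sqrt n := Real.sqrt_pos.2 hn0
  have h1 : sdft (Real.sqrt n)⁻¹ n = fun (j : Fin n) x => ((Real.sqrt n : ℝ) : ℂ)⁻¹ * dft n j x := by
    funext j x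
    rw [sdft, Complex.ofReal_inv]
  have h2 := hn (Real.sqrt n)⁻¹ (by positivity) s (by rw [h1]; exact hs)
  rw [inv_mul_cancel₀ hsq.ne', div_one, Real.log_one, max_self, mul_zero, add_zero] at h2
  have hlogK : 0 ≤ Real.log K := Real.log_nonneg hK
  rw [div_le_iff₀ (by positivity)]
  linarith

theorem eventually_half {c : ℝ} (hc : 0 < c) : ∀ᶠ n : ℕ in atTop,
    (n : ℝ) ≤ c * (n * Real.logb 2 n) := by
  filter_upwards [logb_nat_tendsto.eventually_ge_atTop (1 / c)] with n hn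
  have hn0 : (0 : ℝ) ≤ n := Nat.cast_nonneg n
  have h1 : 1 ≤ c * Real.logb 2 n := by
    have := mul_le_mul_of_nonneg_left hn hc.le
    rwa [mul_one_div_cancel hc.ne'] at this
  calc (n : ℝ) = n * 1 := (mul_one _).symm
    _ ≤ n * (c * Real.logb 2 n) := mul_le_mul_of_nonneg_left h1 hn0
    _ = c * (n * Real.logb 2 n) := by ring

theorem q1_iff : (∃ c : ℝ, 0 < c ∧ ∀ᶠ n : ℕ in atTop, c * (n * Real.logb 2 n) ≤ L n) ↔
    ∃ c : ℝ, 0 < c ∧ ∀ᶠ n : ℕ in atTop, ∀ ρ : ℝ, 0 < ρ → ∀ s : ℕ,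
      Computes (disc 1) ⊤ (sdft ρ n) s → c * (n * Real.logb 2 n) ≤ s := by
  constructor
  · rintro ⟨c, hc, h⟩
    refine ⟨c / 2, by positivity, ?_⟩
    filter_upwards [h, eventually_half (c := c / 2) (by positivity)] with n hn hn2 ρ hρ s hs
    have h1 : (L n : ℝ) ≤ s + n := by exact_mod_cast L_le_scaled hρ hs
    linarith
  · rintro ⟨c, hc, h⟩
    refine ⟨c / 4, by positivity, ?_⟩
    filter_upwards [h, eventually_half (c := c / 2) (by positivity)] with n hn hn2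
    obtain ⟨ρ, hρ, s, hs, hcomp⟩ := exists_scaled n
    have h1 := hn ρ hρ s hcomp
    have h2 : (s : ℝ) ≤ 2 * L n + n := by exact_mod_cast hs
    linarith

end Vale.Agent.P344.R2.H621
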