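import Vale.Agent.P344.R2.H621.Main

/-!
# Sparse systems of equations and their solution
-/

set_option linter.unusedSectionVars false

namespace Vale.Agent.P344.R2.H621

open Matrix Finset
open scoped ComplexOrder

variable {ι W : Type} [Fintype ι] [Fintype W] [DecidableEq ι] [DecidableEq W]

theorem trace_mul_conj_re {m n : Type} [Fintype m] [Fintype n] (A : Matrix m n ℂ) :
    (A * Aᴴ).trace.re = ∑ j, ∑ i, ‖A i j‖ ^ 2 := by
  rw [sum_comm]
  simp only [trace, diag_apply, mul_apply, conjTranspose_apply, Complex.re_sum]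
  refine sum_congr rfl fun i _ => sum_congr rfl fun j _ => ?_
  rw [Complex.star_def, Complex.mul_conj, Complex.ofReal_re, Complex.normSq_eq_norm_sq]

theorem trace_mul_conj_le {m n : Type} [Fintype m] [Fintype n] {A : Matrix m n ℂ}
    (hA : Cols 1 A) : (A * Aᴴ).trace.re ≤ Fintype.card n := by
  rw [trace_mul_conj_re]
  calc ∑ j, ∑ i, ‖A i j‖ ^ 2 ≤ ∑ j : n, (1 : ℝ) := by
        refine sum_le_sum fun j _ => ?_
        refine le_trans (sum_le_sum fun i _ => ?_) (hA j)
        have h1 : ‖A i j‖ ≤ 1 :=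
          (single_le_sum (f := fun i => ‖A i j‖) (fun _ _ => norm_nonneg _)
            (mem_univ i)).trans (hA j)
        have h0 := norm_nonneg (A i j)
        nlinarith
    _ = Fintype.card n := by simp

/-- `det (X + Y) ≥ |det T|^2` if `X = T T*` and `Y ≥ 0`. -/
theorem det_add_ge {T : Matrix W W ℂ} (hT : T.det ≠ 0) {m : Type} [Fintype m] (Y : Matrix W m ℂ) :
    (T * Tᴴ + Y * Yᴴ).PosDef ∧ ‖T.det‖ ^ 2 ≤ (T * Tᴴ + Y * Yᴴ).det.re := by
  have hTu : IsUnit T.det := isUnit_iff_ne_zero.2 hT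
  have h1 : T * Tᴴ + Y * Yᴴ = T * (1 + (T⁻¹ * Y) * (T⁻¹ * Y)ᴴ) * Tᴴ := by
    rw [Matrix.mul_add, Matrix.add_mul, Matrix.mul_one, ← Matrix.mul_assoc T (T⁻¹ * Y),
      ← Matrix.mul_assoc T T⁻¹, mul_nonsing_inv _ hTu, Matrix.one_mul, Matrix.mul_assoc Y,
      ← conjTranspose_mul, ← Matrix.mul_assoc T T⁻¹, mul_nonsing_inv _ hTu, Matrix.one_mul]
  have hS : ((T⁻¹ * Y) * (T⁻¹ * Y)ᴴ).PosSemidef := posSemidef_self_mul_conjTranspose _
  constructor
  · have h2 : (T * Tᴴ).PosDef := by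
      refine PosDef.mul_conjTranspose_self T ?_
      exact Matrix.vecMul_injective_iff_isUnit.2 ((Matrix.isUnit_iff_isUnit_det _).2 hTu)
    exact h2.add_posSemidef (posSemidef_self_mul_conjTranspose _)
  · rw [h1, det_mul, det_mul, mul_right_comm, det_conjTranspose]
    have h3 : T.det * star T.det = ((‖T.det‖ ^ 2 : ℝ) : ℂ) := by
      rw [Complex.star_def, Complex.mul_conj, Complex.normSq_eq_norm_sq]
    rw [h3, Complex.re_ofReal_mul]
    have h4 := one_le_det_one_add hS
    have h5 : 0 ≤ ‖T.det‖ ^ 2 := by positivity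
    nlinarith

/-- The forms of a sparse system have small determinant. -/
theorem log_det_solution {T : Matrix W W ℂ} (hT : T.det ≠ 0) {C V : Matrix W ι ℂ}
    (hV : T * V = C) (hTc : Cols 1 T) (hCc : Cols 1 C) :
    Real.log (1 + Vᴴ * V).det.re ≤ Fintype.card ι - 2 * Real.log ‖T.det‖ := by
  have hTu : IsUnit T.det := isUnit_iff_ne_zero.2 hT
  have h1 : T * (1 + V * Vᴴ) * Tᴴ = T * Tᴴ + C * Cᴴ := by
    rw [Matrix.mul_add, Matrix.add_mul, Matrix.mul_one, ← Matrix.mul_assoc T V, hV,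
      Matrix.mul_assoc C, ← conjTranspose_mul, hV]
  have h2 : (1 + Vᴴ * V).det = (1 + V * Vᴴ).det := det_one_add_mul_comm _ _
  have h3 : T.det * star T.det = ((‖T.det‖ ^ 2 : ℝ) : ℂ) := by
    rw [Complex.star_def, Complex.mul_conj, Complex.normSq_eq_norm_sq]
  have hpos : 0 < ‖T.det‖ := norm_pos_iff.2 hT
  obtain ⟨hpd, _⟩ := det_add_ge hT C
  have h4 : (T * Tᴴ + C * Cᴴ).det.re = ‖T.det‖ ^ 2 * (1 + Vᴴ * V).det.re := by
    rw [← h1, det_mul, det_mul, mul_right_comm, det_conjTranspose, h3, Complex.re_ofReal_mul, h2]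
  have h5 : 0 < (1 + Vᴴ * V).det.re := by
    have := one_le_det_one_add (posSemidef_conjTranspose_mul_self V)
    linarith
  have h6 := log_det_le hpd
  rw [h4, Real.log_mul (by positivity) h5.ne', Real.log_pow] at h6
  have h7 : (T * Tᴴ + C * Cᴴ).trace.re ≤ Fintype.card W + Fintype.card ι := by
    rw [trace_add, Complex.add_re]
    exact add_le_add (trace_mul_conj_le hTc) (trace_mul_conj_le hCc)
  push_cast at h6
  linarith

/-- Lower bound for the trace of the inverse. -/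
theorem trace_inv_ge {S : Matrix ι ι ℂ} (hS : S.PosSemidef) {b : ℝ} (hb : 0 < b)
    (hdet : Real.log (1 + S).det.re ≤ b * Fintype.card ι) :
    (Fintype.card ι : ℝ) / 6 ≤
      (((2 : ℝ) : ℂ) • (1 : Matrix ι ι ℂ) + ((Real.exp (-b) ^ 2 : ℝ) : ℂ) • S)⁻¹.trace.re := by
  rw [trace_inv_add hS (by norm_num) (by positivity), Complex.ofReal_re]
  rw [det_one_add hS, Complex.ofReal_re, Real.log_prod fun i _ => by
    have := hS.eigenvalues_nonneg i
    positivity] at hdet
  have key : ∀ i, 1 / 3 * (1 - Real.log (1 + hS.1.eigenvalues i) / (2 * b)) ≤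
      (2 + Real.exp (-b) ^ 2 * hS.1.eigenvalues i)⁻¹ := by
    intro i
    have hμ := hS.eigenvalues_nonneg i
    set μ := hS.1.eigenvalues i with hμdef
    have h2 : Real.exp (-b) ^ 2 = Real.exp (-(2 * b)) := by
      rw [← Real.exp_nat_mul]
      congr 1
      push_cast
      ring
    rw [h2]
    by_cases h : Real.exp (-(2 * b)) * μ ≤ 1
    · have h3 : (1 : ℝ) / 3 ≤ (2 + Real.exp (-(2 * b)) * μ)⁻¹ := by
        rw [inv_eq_one_div]
        have := Real.exp_pos (-(2 * b))
        exact one_div_le_one_div_of_le (by positivity) (by linarith)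
      have h4 : 0 ≤ Real.log (1 + μ) / (2 * b) := by
        have := Real.log_nonneg (x := 1 + μ) (by linarith)
        positivity
      linarith
    · push Not at h
      have h3 : 2 * b < Real.log (1 + μ) := by
        rw [Real.lt_log_iff_exp_lt (by linarith)]
        have h4 : Real.exp (2 * b) * Real.exp (-(2 * b)) = 1 := by
          rw [← Real.exp_add]
          simp
        have h5 := Real.exp_pos (2 * b)
        nlinarith
      have h4 : 1 < Real.log (1 + μ) / (2 * b) := by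
        rw [lt_div_iff₀ (by positivity)]
        linarith
      have h5 : 0 ≤ (2 + Real.exp (-(2 * b)) * μ)⁻¹ := by positivity
      linarith
  calc (Fintype.card ι : ℝ) / 6 = ∑ i : ι, (1 / 3 : ℝ) - (b * Fintype.card ι) / (6 * b) := by
        simp only [sum_const, card_univ, nsmul_eq_mul]
        field_simp
        ring
    _ ≤ ∑ i : ι, (1 / 3 : ℝ) - (∑ i, Real.log (1 + hS.1.eigenvalues i)) / (6 * b) := by
        have : (∑ i, Real.log (1 + hS.1.eigenvalues i)) / (6 * b) ≤
            (b * Fintype.card ι) / (6 * b) :=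
          div_le_div_of_nonneg_right hdet (by positivity)
        linarith
    _ = ∑ i, 1 / 3 * (1 - Real.log (1 + hS.1.eigenvalues i) / (2 * b)) := by
        rw [sum_div, ← sum_sub_distrib]
        refine sum_congr rfl fun i _ => ?_
        field_simp
        ring
    _ ≤ ∑ i, (2 + Real.exp (-b) ^ 2 * hS.1.eigenvalues i)⁻¹ := sum_le_sum fun i _ => key i

/-- The inequality for a sparse system with solution `V` that contains `U`. -/
theorem system_ineq {U : Matrix ι ι ℂ} (hU : U * Uᴴ = 1) {δ : ℝ} (hδ : ∀ i j, ‖U i j‖ ≤ δ)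
    {T : Matrix W W ℂ} (hT : T.det ≠ 0) {C V : Matrix W ι ℂ} (hV : T * V = C)
    {B : Matrix ι W ℂ} {r : ι → ℝ} (hr0 : ∀ j, 0 < r j) (hr1 : ∀ j, r j ≤ 1)
    (hB : ∀ j i, (B * V) j i = r j * U j i)
    (hCc : Cols 1 C) (hBT : ∀ w, ∑ j, ‖B j w‖ + ∑ w', ‖T w' w‖ ≤ 1)
    (hBr : ∀ j, ∑ w, ‖B j w‖ ≤ 2) (hTr : ∀ w, ∑ i, ‖C w i‖ + ∑ w', ‖T w w'‖ ≤ 3)
    (hn : 1 ≤ Fintype.card ι) {L q : ℝ} (hL : 0 ≤ L) {l : ℕ} (hq1 : 1 < q)
    (hq : q * (3 * L) ≤ (2 * l : ℕ)) :
    (Fintype.card ι : ℝ) / 6 ≤ δ * Fintype.card ι * 2 ^ (2 * l) +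
      1 / 2 * ((Fintype.card ι + Fintype.card W) * Real.exp (-L) +
        (4 * Fintype.card ι + Fintype.card W - 6 * Real.log ‖T.det‖ -
          2 * ∑ j, Real.log (r j)) / Real.log q) := by
  classical
  have hn0 : (0 : ℝ) < Fintype.card ι := by exact_mod_cast hn
  set n : ℝ := (Fintype.card ι : ℝ) with hndef
  have hTc : Cols 1 T := fun w => by
    have h1 : 0 ≤ ∑ j, ‖B j w‖ := sum_nonneg fun _ _ => norm_nonneg _
    linarith [hBT w]
  have hdet1 := log_det_solution hT hV hTc hCc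
  -- the scale
  obtain ⟨b, hb⟩ : ∃ b, b = (n - 2 * Real.log ‖T.det‖) / n := ⟨_, rfl⟩
  have hbn : b * n = n - 2 * Real.log ‖T.det‖ := by
    rw [hb]
    field_simp
  have hlogT : Real.log ‖T.det‖ ≤ 0 := by
    have h1 : 0 ≤ Real.log (T * Tᴴ).det.re → True := fun _ => trivial
    obtain ⟨hpd, hge⟩ := det_add_ge hT (0 : Matrix W Unit ℂ)
    rw [Matrix.zero_mul, add_zero] at hpd hge
    have h2 := log_det_le hpd
    have h3 := trace_mul_conj_le hTc
    have hpos : 0 < ‖T.det‖ := norm_pos_iff.2 hT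
    have h4 : Real.log (‖T.det‖ ^ 2) ≤ Real.log (T * Tᴴ).det.re :=
      Real.log_le_log (by positivity) hge
    rw [Real.log_pow] at h4
    push_cast at h4
    linarith
  have hb1 : 1 ≤ b := by
    rw [hb, le_div_iff₀ hn0]
    linarith
  have hb0 : 0 < b := by linarith
  obtain ⟨θ, hθ⟩ : ∃ θ, θ = Real.exp (-b) := ⟨_, rfl⟩
  have hθ0 : 0 < θ := hθ ▸ Real.exp_pos _
  have hθ1 : θ ≤ 1 := by
    rw [hθ]
    exact Real.exp_le_one_iff.2 (by linarith)
  have hθn : ‖(θ : ℂ)‖ = θ := by rw [Complex.norm_real, Real.norm_of_nonneg hθ0.le]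
  -- the matrices
  let A2 : Matrix (ι ⊕ W) (ι ⊕ W) ℂ :=
    fromBlocks (diagonal fun j => ((θ * r j : ℝ) : ℂ)) (-B) 0 T
  let A1 : Matrix (ι ⊕ W) ι ℂ := fromRows 0 (-((θ : ℂ) • C))
  let A : Matrix (ι ⊕ W) (ι ⊕ (ι ⊕ W)) ℂ := fromCols A1 A2
  let J : Matrix (ι ⊕ (ι ⊕ W)) ι ℂ := fromRows 1 (fromRows U ((θ : ℂ) • V))
  have hAJ : A * J = 0 := by
    have h1 : A * J = A1 * (1 : Matrix ι ι ℂ) + A2 * fromRows U ((θ : ℂ) • V) := by
      simp only [A, J, fromCols_mul_fromRows]
    have h2 : A2 * fromRows U ((θ : ℂ) • V) =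
        fromRows (diagonal (fun j => ((θ * r j : ℝ) : ℂ)) * U + -B * ((θ : ℂ) • V))
          ((0 : Matrix W ι ℂ) * U + T * ((θ : ℂ) • V)) := by
      simp only [A2, fromBlocks_mul_fromRows]
    rw [h1, h2]
    ext a i
    rcases a with j | w
    · simp only [Matrix.mul_one, Matrix.add_apply, fromRows_apply_inl, A1, Matrix.zero_apply,
        diagonal_mul, Matrix.mul_smul, Matrix.smul_apply, smul_eq_mul, Matrix.neg_mul,
        Matrix.neg_apply, hB]
      push_cast
      ring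
    · simp only [Matrix.mul_one, Matrix.add_apply, fromRows_apply_inr, A1, Matrix.zero_mul,
        Matrix.zero_apply, Matrix.mul_smul, Matrix.smul_apply, smul_eq_mul, hV,
        Matrix.neg_apply]
      ring
  have hA2det : A2.det = (∏ j, ((θ * r j : ℝ) : ℂ)) * T.det := by
    simp only [A2, det_fromBlocks_zero₂₁, det_diagonal]
  have hA2norm : Real.log ‖A2.det‖ = n * Real.log θ + (∑ j, Real.log (r j)) +
      Real.log ‖T.det‖ := by
    have h1 : ‖A2.det‖ = (∏ j, (θ * r j)) * ‖T.det‖ := by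
      rw [hA2det, norm_mul, norm_prod]
      congr 1
      refine prod_congr rfl fun j _ => ?_
      rw [Complex.norm_real, Real.norm_of_nonneg (mul_pos hθ0 (hr0 j)).le]
    have h2 : 0 < ∏ j, (θ * r j) := prod_pos fun j _ => mul_pos hθ0 (hr0 j)
    rw [h1, Real.log_mul h2.ne' (norm_pos_iff.2 hT).ne',
      Real.log_prod fun j _ => (mul_pos hθ0 (hr0 j)).ne']
    have h3 : ∀ j, Real.log (θ * r j) = Real.log θ + Real.log (r j) := fun j =>
      Real.log_mul hθ0.ne' (hr0 j).ne'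
    simp only [h3, sum_add_distrib, sum_const, card_univ, nsmul_eq_mul]
    rfl
  have hA2ne : A2.det ≠ 0 := by
    rw [hA2det]
    refine mul_ne_zero (prod_ne_zero_iff.2 fun j _ => ?_) hT
    have := mul_pos hθ0 (hr0 j)
    exact_mod_cast this.ne'
  have hKeq : A * Aᴴ = A2 * A2ᴴ + A1 * A1ᴴ := by
    simp only [A, conjTranspose_fromCols_eq_fromRows_conjTranspose, fromCols_mul_fromRows]
    rw [add_comm]
  obtain ⟨hKpd, hKdet⟩ := det_add_ge hA2ne A1
  rw [← hKeq] at hKpd hKdet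
  have hG : Jᴴ * J = ((2 : ℝ) : ℂ) • (1 : Matrix ι ι ℂ) + ((θ ^ 2 : ℝ) : ℂ) • (Vᴴ * V) := by
    have h1 : Jᴴ * J = 1 + (Uᴴ * U + ((θ : ℂ) • V)ᴴ * ((θ : ℂ) • V)) := by
      simp only [J, conjTranspose_fromRows_eq_fromCols_conjTranspose, fromCols_mul_fromRows,
        conjTranspose_one, Matrix.mul_one]
    have hUU : Uᴴ * U = 1 := mul_eq_one_comm.1 hU
    rw [h1, hUU, conjTranspose_smul, Matrix.smul_mul, Matrix.mul_smul, smul_smul, ← add_assoc]
    congr 1
    · ext i j
      simp [Matrix.one_apply]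
      split_ifs <;> norm_num
    · congr 1
      simp
      ring
  have hGpd : (Jᴴ * J).PosDef := by
    rw [hG]
    have h1 : (((2 : ℝ) : ℂ) • (1 : Matrix ι ι ℂ)).PosDef := by
      refine PosDef.one.smul ?_
      exact_mod_cast (by norm_num : (0 : ℝ) < 2)
    refine h1.add_posSemidef ?_
    refine (posSemidef_conjTranspose_mul_self V).smul ?_
    exact_mod_cast (by positivity : (0 : ℝ) ≤ θ ^ 2)
  have hrow : Rows 3 A := by
    intro a
    rw [Fintype.sum_sum_type, Fintype.sum_sum_type]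
    rcases a with j | w
    · have h1 : ∑ i, ‖A (Sum.inl j) (Sum.inl i)‖ = 0 := by simp [A, A1]
      have h2 : ∑ i, ‖A (Sum.inl j) (Sum.inr (Sum.inl i))‖ = θ * r j := by
        have : ∀ i, ‖A (Sum.inl j) (Sum.inr (Sum.inl i))‖ = if j = i then θ * r j else 0 := by
          intro i
          simp only [A, A2, fromCols_apply_inr, fromBlocks_apply₁₁, diagonal_apply]
          split_ifs
          · rw [Complex.norm_real, Real.norm_of_nonneg (mul_pos hθ0 (hr0 j)).le]
          · simp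
        simp [this]
      have h3 : ∑ w, ‖A (Sum.inl j) (Sum.inr (Sum.inr w))‖ = ∑ w, ‖B j w‖ := by
        simp [A, A2]
      rw [h1, h2, h3]
      have h4 : θ * r j ≤ 1 := by
        have := hr0 j
        nlinarith [hr1 j]
      linarith [hBr j]
    · have h1 : ∑ i, ‖A (Sum.inr w) (Sum.inl i)‖ = θ * ∑ i, ‖C w i‖ := by
        rw [mul_sum]
        refine sum_congr rfl fun i _ => ?_
        simp only [A, A1, fromCols_apply_inl, fromRows_apply_inr, Matrix.neg_apply,
          Matrix.smul_apply, smul_eq_mul, norm_neg, norm_mul, hθn]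
      have h2 : ∑ i, ‖A (Sum.inr w) (Sum.inr (Sum.inl i))‖ = 0 := by simp [A, A2]
      have h3 : ∑ w', ‖A (Sum.inr w) (Sum.inr (Sum.inr w'))‖ = ∑ w', ‖T w w'‖ := by
        simp [A, A2]
      rw [h1, h2, h3]
      have h4 : 0 ≤ ∑ i, ‖C w i‖ := sum_nonneg fun _ _ => norm_nonneg _
      nlinarith [hTr w]
  have hcol : Cols 1 A := by
    intro a
    rw [Fintype.sum_sum_type]
    rcases a with i | j | w
    · have h1 : ∑ j, ‖A (Sum.inl j) (Sum.inl i)‖ = 0 := by simp [A, A1]
      have h2 : ∑ w, ‖A (Sum.inr w) (Sum.inl i)‖ = θ * ∑ w, ‖C w i‖ := by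
        rw [mul_sum]
        refine sum_congr rfl fun w _ => ?_
        simp only [A, A1, fromCols_apply_inl, fromRows_apply_inr, Matrix.neg_apply,
          Matrix.smul_apply, smul_eq_mul, norm_neg, norm_mul, hθn]
      rw [h1, h2]
      have h4 : 0 ≤ ∑ w, ‖C w i‖ := sum_nonneg fun _ _ => norm_nonneg _
      nlinarith [hCc i]
    · have h1 : ∑ i, ‖A (Sum.inl i) (Sum.inr (Sum.inl j))‖ = θ * r j := by
        have : ∀ i, ‖A (Sum.inl i) (Sum.inr (Sum.inl j))‖ = if i = j then θ * r j else 0 := by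
          intro i
          simp only [A, A2, fromCols_apply_inr, fromBlocks_apply₁₁, diagonal_apply]
          split_ifs with h
          · subst h
            rw [Complex.norm_real, Real.norm_of_nonneg (mul_pos hθ0 (hr0 i)).le]
          · simp
        simp [this]
      have h2 : ∑ w, ‖A (Sum.inr w) (Sum.inr (Sum.inl j))‖ = 0 := by simp [A, A2]
      rw [h1, h2]
      have := hr0 j
      nlinarith [hr1 j]
    · have h1 : ∑ j, ‖A (Sum.inl j) (Sum.inr (Sum.inr w))‖ = ∑ j, ‖B j w‖ := by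
        simp [A, A2]
      have h2 : ∑ w', ‖A (Sum.inr w') (Sum.inr (Sum.inr w))‖ = ∑ w', ‖T w' w‖ := by
        simp [A, A2]
      rw [h1, h2]
      exact hBT w
  have hmain := main_ineq hU hAJ hKpd hGpd (by simp)
    (fun i j => by simp [J, Matrix.one_apply])
    (fun i j => by simp [J]) hrow hcol hδ hL hq1 hq
  have hlow := trace_inv_ge (posSemidef_conjTranspose_mul_self V) hb0 (by
    rw [← hndef, hbn]
    exact hdet1)
  rw [← hθ, ← hG] at hlow
  refine hlow.trans (hmain.trans ?_)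
  have htr : (A * Aᴴ).trace.re ≤ 2 * n + Fintype.card W := by
    refine (trace_mul_conj_le hcol).trans (le_of_eq ?_)
    simp only [Fintype.card_sum]
    push_cast
    rw [← hndef]
    ring
  have hKlog : 2 * Real.log ‖A2.det‖ ≤ Real.log (A * Aᴴ).det.re := by
    have h1 : 0 < ‖A2.det‖ := norm_pos_iff.2 hA2ne
    have := Real.log_le_log (by positivity) hKdet
    rw [Real.log_pow] at this
    push_cast at this
    exact this
  have hlogθ : Real.log θ = -b := by rw [hθ, Real.log_exp]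
  have hnum : (A * Aᴴ).trace.re - Real.log (A * Aᴴ).det.re ≤
      4 * n + Fintype.card W - 6 * Real.log ‖T.det‖ - 2 * ∑ j, Real.log (r j) := by
    rw [hA2norm, hlogθ] at hKlog
    nlinarith [hbn]
  have hlogq : 0 < Real.log q := Real.log_pos hq1
  have hdiv := div_le_div_of_nonneg_right hnum hlogq.le
  have hcardR : ((Fintype.card (ι ⊕ W) : ℕ) : ℝ) = n + Fintype.card W := by
    simp [hndef]
  rw [hcardR]
  linarith

end Vale.Agent.P344.R2.H621
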