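import Vale.Agent.P344.H952.Main
import Vale.Agent.P344.R2.H621.Field

/-!
# The Walsh–Hadamard transform from the transform of order `2 ^ a - 1`
-/

namespace Vale.Agent.P344.R2.H621

open Set Vale.Agent.P344

variable {Λ : Set ℂ} {X : Type}

/-- The Walsh–Hadamard transform, indexed by the subsets of `Fin a`. -/
noncomputable def wht (a : ℕ) (S : Finset (Fin a)) (x : Finset (Fin a) → ℂ) : ℂ :=
  ∑ T, (-1 : ℂ) ^ (S ∩ T).card * x T

theorem periodic_mod {n : ℕ} {h : ℕ → ℂ} (hp : ∀ t, h (t + n) = h t) (t k : ℕ) :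
    h (t % n + k) = h (t + k) := by
  have key : ∀ q r : ℕ, h (r + n * q) = h r := by
    intro q r
    induction q with
    | zero => rfl
    | succ q ih => rw [Nat.mul_succ, ← Nat.add_assoc, hp, ih]
  conv_rhs => rw [← Nat.mod_add_div t n]
  rw [show t % n + n * (t / n) + k = t % n + k + n * (t / n) by ring, key]

/-- Fourier coefficients of a periodic function. -/
noncomputable def fc (n : ℕ) (h : ℕ → ℂ) (l : ℕ) : ℂ :=
  (n : ℂ)⁻¹ * ∑ u ∈ Finset.range n, h u * zeta n ^ (l * (n - u))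

theorem fourier_inv {n : ℕ} (hn : n ≠ 0) {h : ℕ → ℂ} (hp : ∀ t, h (t + n) = h t) (t : ℕ) :
    ∑ l ∈ Finset.range n, fc n h l * zeta n ^ (l * t) = h t := by
  have hnc : (n : ℂ) ≠ 0 := Nat.cast_ne_zero.mpr hn
  have hn0 : 0 < n := Nat.pos_of_ne_zero hn
  have step : ∑ l ∈ Finset.range n, fc n h l * zeta n ^ (l * t) =
      (n : ℂ)⁻¹ * ∑ u ∈ Finset.range n, h u *
        ∑ l ∈ Finset.range n, zeta n ^ (l * (t + (n - u))) := by
    simp only [fc, Finset.mul_sum, Finset.sum_mul]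
    rw [Finset.sum_comm]
    refine Finset.sum_congr rfl fun m _ => Finset.sum_congr rfl fun l _ => ?_
    rw [Nat.mul_add, pow_add]
    ring
  rw [step]
  simp only [char_sum hn]
  have hmem : t % n ∈ Finset.range n := Finset.mem_range.2 (Nat.mod_lt _ hn0)
  rw [Finset.sum_eq_single_of_mem _ hmem]
  · rw [if_pos]
    · have := periodic_mod hp t 0
      rw [Nat.add_zero, Nat.add_zero] at this
      rw [this]
      field_simp
    · have h1 := Nat.mod_lt t hn0
      have h2 := Nat.mod_add_div t n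
      refine ⟨t / n + 1, ?_⟩
      rw [Nat.mul_add, Nat.mul_one]
      omega
  · intro u hu hne
    rw [Finset.mem_range] at hu
    rw [if_neg, mul_zero]
    rintro ⟨r, hr⟩
    apply hne
    have h1 : t + n = u + n * r := by omega
    have h2 : (t + n) % n = (u + n * r) % n := by rw [h1]
    rw [Nat.add_mod_right, Nat.add_mul_mod_self_left, Nat.mod_eq_of_lt hu] at h2
    exact h2.symm

theorem sum_split {a : ℕ} {β : ℕ → Finset (Fin a)} (hβ0 : ∀ k, β k ≠ ∅)
    (hβ : ∀ k < 2 ^ a - 1, ∀ l < 2 ^ a - 1, β k = β l → k = l) (f : Finset (Fin a) → ℂ) :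
    ∑ T, f T = (∑ k : Fin (2 ^ a - 1), f (β k)) + f ∅ := by
  classical
  have hinj : Function.Injective fun k : Fin (2 ^ a - 1) => β k := by
    intro k l hkl
    exact Fin.ext (hβ k k.2 l l.2 hkl)
  have hnot : (∅ : Finset (Fin a)) ∉ Finset.univ.image fun k : Fin (2 ^ a - 1) => β k := by
    intro h
    obtain ⟨k, _, hk⟩ := Finset.mem_image.1 h
    exact hβ0 k hk
  have huniv : insert ∅ (Finset.univ.image fun k : Fin (2 ^ a - 1) => β k) = Finset.univ := by
    apply Finset.eq_univ_of_card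
    rw [Finset.card_insert_of_notMem hnot, Finset.card_image_of_injective _ hinj,
      Finset.card_univ, Fintype.card_fin, Fintype.card_finset, Fintype.card_fin]
    have : 0 < 2 ^ a := by positivity
    omega
  rw [← huniv, Finset.sum_insert hnot, Finset.sum_image fun x _ y _ hxy => hinj hxy, add_comm]

/-- Adding a fixed available value to every value of a family. -/
theorem add_layer {I : Type} [Fintype I] {S : Set (ℕ × (X → ℂ))} {d₀ : ℕ} (u : I → X → ℂ)
    (v : X → ℂ) (hu : Avail S (tg d₀ u)) (hv : Avail S {(d₀, v)}) :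
    Can Λ S (Fintype.card I) (tg (d₀ + 1) fun i => u i + v) := by
  have key : ∀ i, Can Λ S 1 ({(d₀ + 1, u i + v)} : Set (ℕ × (X → ℂ))) := by
    intro i
    obtain ⟨d, hd, hV⟩ := hu (d₀, u i) (mem_tg i)
    obtain ⟨e, he, hW⟩ := hv (d₀, v) rfl
    refine ⟨1, le_rfl, _, .add .zero hV hW, ?_⟩
    rintro p rfl
    refine ⟨max d e + 1, ?_, mem_insert _ _⟩
    simp only at hd he ⊢
    omega
  have h2 := Can.family 1 _ key
  rw [mul_one] at h2
  refine h2.mono_right (Avail.of_subset ?_)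
  rintro ⟨p1, p2⟩ ⟨hp1, i, hp2⟩
  simp only at hp1 hp2
  subst hp1 hp2
  exact mem_iUnion.mpr ⟨i, rfl⟩

/-- The Walsh–Hadamard transform of order `2 ^ a` reduces to two discrete Fourier transforms of
order `2 ^ a - 1` (Rader's trick in the field with `2 ^ a` elements). -/
theorem wht_blk {a s d : ℕ} (ha : 1 ≤ a) (h : Blk univ (dft (2 ^ a - 1)) s d) :
    Blk univ (wht a) (2 * s + 2 * 2 ^ a) (2 * d + 2) := by
  obtain ⟨f, α, β, hper, hβ0, hβ, hf⟩ := exists_log ha
  have h2a : 2 ^ 1 ≤ 2 ^ a := Nat.pow_le_pow_right (by norm_num) ha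
  obtain ⟨n, hn⟩ : ∃ n, n = 2 ^ a - 1 := ⟨_, rfl⟩
  have hn0 : n ≠ 0 := by omega
  have hsplit : ∀ g : Finset (Fin a) → ℂ, ∑ T, g T = (∑ k : Fin n, g (β k)) + g ∅ := by
    subst hn
    exact fun g => sum_split hβ0 hβ g
  rw [← hn] at h hper hβ
  let V := Finset (Fin a) → ℂ
  let S0 : Set (ℕ × (V → ℂ)) := inputs (Finset (Fin a))
  -- first transform
  let g1 : Fin n → V → ℂ := fun k x => x (β k)
  let F1 : Fin n → V → ℂ := fun l x => dft n l fun k => g1 k x
  have c1 : Can univ S0 s (tg (d + 0) F1) := h.use (S := S0) (d₀ := 0) g1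
    (by
      rintro p rfl
      exact ⟨0, le_rfl, zero_mem_inputs _⟩)
    (by
      rintro ⟨p1, p2⟩ ⟨hp1, k, hp2⟩
      simp only at hp1 hp2
      subst hp1 hp2
      exact ⟨0, le_rfl, mem_inputs _⟩)
  rw [Nat.add_zero] at c1
  -- multipliers
  have c2 := scale_layer (Λ := univ) (S := S0 ∪ tg d F1) (d₀ := d) F1
    (fun l => fc n f l.val) (fun l => mem_univ _) (Avail.of_subset subset_union_right)
  rw [Fintype.card_fin] at c2
  have c12 := c1.trans c2
  let F2 : Fin n → V → ℂ := fun l => fc n f l.val • F1 l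
  have c12 : Can univ S0 (s + n) (tg d F1 ∪ tg (d + 1) F2) := c12
  -- second transform
  let F3 : Fin n → V → ℂ := fun j x => dft n j fun l => F2 l x
  have c3 : Can univ (S0 ∪ (tg d F1 ∪ tg (d + 1) F2)) s (tg (d + (d + 1)) F3) :=
    h.use (d₀ := d + 1) F2
    (by
      rintro p rfl
      exact ⟨0, Nat.zero_le _, Or.inl (zero_mem_inputs _)⟩)
    (Avail.of_subset (subset_union_right.trans subset_union_right))
  have c123 := c12.trans c3
  -- additions
  let v : V → ℂ := fun x => x ∅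
  have c4 : Can univ (S0 ∪ (tg d F1 ∪ tg (d + 1) F2 ∪ tg (d + (d + 1)) F3)) n
      (tg (d + (d + 1) + 1) fun j => F3 j + v) := by
    have := add_layer (Λ := univ) (S := S0 ∪ (tg d F1 ∪ tg (d + 1) F2 ∪ tg (d + (d + 1)) F3))
      (d₀ := d + (d + 1)) F3 v (Avail.of_subset (subset_union_right.trans subset_union_right))
      (by
        rintro p rfl
        exact ⟨0, Nat.zero_le _, Or.inl (mem_inputs _)⟩)
    rwa [Fintype.card_fin] at this
  have c1234 := c123.trans c4
  have c5 : Can univ (S0 ∪ (tg d F1 ∪ tg (d + 1) F2 ∪ tg (d + (d + 1)) F3 ∪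
      tg (d + (d + 1) + 1) fun j => F3 j + v)) 1
      (tg (d + 1) fun _ : Unit => F1 ⟨0, Nat.pos_of_ne_zero hn0⟩ + v) := by
    refine ⟨1, le_rfl, _, .add (d := d) (e := 0) .zero
      (Or.inr (Or.inl (Or.inl (Or.inl (mem_tg (⟨0, Nat.pos_of_ne_zero hn0⟩ : Fin n))))))
      (Or.inl (mem_inputs (∅ : Finset (Fin a)))), ?_⟩
    rintro ⟨p1, p2⟩ ⟨hp1, _, hp2⟩
    simp only at hp1 hp2
    subst hp1 hp2
    exact ⟨max d 0 + 1, by simp, mem_insert _ _⟩
  have c := c1234.trans c5
  refine (c.mono_right (W' := tg (2 * d + 2) (wht a)) ?_).mono_gates (by omega)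
  rintro ⟨p1, p2⟩ ⟨hp1, S, hp2⟩
  simp only at hp1 hp2
  subst hp1 hp2
  have expand : ∀ x : V, wht a S x =
      (∑ k : Fin n, (-1 : ℂ) ^ (S ∩ β k).card * x (β k)) + x ∅ := by
    intro x
    unfold wht
    rw [hsplit]
    simp
  by_cases hS : S = ∅
  · refine ⟨d + 1, by simp only; omega, Or.inr ⟨rfl, (), ?_⟩⟩
    funext x
    change wht a S x = _
    rw [expand]
    simp [F1, v, dft_def, g1, hS]
  · refine ⟨d + (d + 1) + 1, by simp only; omega, Or.inl (Or.inr ⟨rfl,
      ⟨α S % n, Nat.mod_lt _ (Nat.pos_of_ne_zero hn0)⟩, ?_⟩)⟩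
    funext x
    change wht a S x = _
    rw [expand]
    simp only [Pi.add_apply, v, F3, F2, Pi.smul_apply, smul_eq_mul, F1, dft_def, g1]
    congr 1
    simp only [Finset.mul_sum]
    rw [Finset.sum_comm]
    refine Finset.sum_congr rfl fun k _ => ?_
    rw [hf S k hS, ← periodic_mod hper, ← fourier_inv hn0 hper (α S % n + k), Finset.sum_mul,
      ← Fin.sum_univ_eq_sum_range
        (fun l => fc n f l * zeta n ^ (l * (α S % n + k.val)) * x (β k)) n]
    refine Finset.sum_congr rfl fun l _ => ?_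
    rw [Nat.mul_add, pow_add, Nat.mul_comm (l : ℕ) (α S % n)]
    ring

end Vale.Agent.P344.R2.H621
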